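import Crest.Agent.X212.Bb31.Stm
import Crest.Agent.X212.Bb31.Push
import Crest.Agent.X212.Orx52.Sw
import Crest.Agent.X212.Sym24.NF

/-!
# X212/Hel3/Hel (helper3): `Bb31.HelStmt` and `Bb31.ReStmt`
-/

set_option autoImplicit false
set_option linter.unusedSectionVars false

open Set Filter Topology Function
open scoped ContDiff Manifold
open Crest.Agent.R208.F Crest.Agent.X212.Dr59 Crest.Agent.X212.Int54 Crest.Agent.X212.Cyl58
open Crest.Agent.X212.Sep15 (EE IR IC CM End Box slab px)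
open Crest.Agent.X212.Sym24 (pu dt sl dT OO ft)
open Crest.Agent.X212.Bb31

noncomputable section

namespace Crest.Agent.X212.Hel3

variable {Y : CM 3} {R : CM 2}

/-- a bump which is `1` on a compact subset of an interval -/
theorem exists_bump {S : Set ℝ} (hS : IsCompact S) {a : ℝ} (ha : 0 < a) (h : S ⊆ Ioo (-a) a) :
    ∃ κ : ℝ → ℝ, ContDiff ℝ ∞ κ ∧ tsupport κ ⊆ Ioo (-a) a ∧ (∀ y, 0 ≤ κ y) ∧ ∀ y ∈ S, κ y = 1 := by
  obtain ⟨r, r0, r1, hr⟩ : ∃ r, 0 < r ∧ r < a ∧ S ⊆ Metric.closedBall 0 r := by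
    have : S ⊆ Metric.ball 0 a := by rwa [Real.ball_eq_Ioo, zero_sub, zero_add]
    obtain ⟨r, h1, h2⟩ := exists_pos_lt_subset_ball ha hS.isClosed this
    exact ⟨r, h1.1, h1.2, h2.trans Metric.ball_subset_closedBall⟩
  let f : ContDiffBump (0 : ℝ) := ⟨r, (r + a) / 2, r0, by linarith⟩
  refine ⟨f, f.contDiff, ?_, fun _ => f.nonneg, fun y hy => f.one_of_mem_closedBall (hr hy)⟩
  rw [f.tsupport_eq, Real.closedBall_eq_Icc]
  exact Icc_subset_Ioo (by simp [f]; linarith) (by simp [f]; linarith)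

theorem isCompact_slab {b : R × ℝ → Y} (hb : Box b) {s : Set ℝ} (hs : IsCompact s) :
    IsCompact (slab b s) := (isCompact_univ.prod hs).image hb.continuous

/-- the closed form `κ (y) dy ∧ θ` in a box -/
theorem exists_dyth {b : R × ℝ → Y} (hb : Box b) {θ : Fm 2 R} (hθ : Cl (𝓡 2) 1 univ θ) {κ : ℝ → ℝ}
    (hκ : ContDiff ℝ ∞ κ) (hc : IsCompact (tsupport κ)) : ∃ d : Fm 3 Y, Z2 d ∧
      (∀ p, pm (IR 2) (𝓡 3) b d p = κ p.2 • (dT (EE 2) * pu θ p)) ∧
      ∀ p ∉ slab b (tsupport κ), d p = 0 := by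
  have h1 : Cl (IR 2) 2 univ (ft R κ • (dt (EE 2) R * pu θ)) := by
    have s : Sm (IR 2) univ (dt (EE 2) R * pu θ) := fun p _ =>
      (Sym24.smAt_dt p).mul (Sym24.smAt_pu (hθ.sm _ trivial))
    refine ⟨fun p _ => Sym24.smAt_ft hκ (s p trivial), fun p _ =>
      (Sym24.isDeg_dT_mul (Sym24.isDeg_up (hθ.dg _ trivial))).smul _, fun p _ => ?_⟩
    rw [Sym24.dM_ft hκ (s p trivial), Sym24.dM_dt_mul (Sym24.smAt_pu (hθ.sm _ trivial)),
      Sym24.dM_pu (hθ.sm _ trivial), Pi.mul_apply, dt, Sym24.dT_dT, pu, hθ.cl _ trivial]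
    simp
  obtain ⟨d, e, z, -, -, c⟩ := (OE.of_oe hb).exists_push (a := ft R κ • (dt (EE 2) R * pu θ))
    (isCompact_univ.prod hc) (subset_univ _) fun p _ hp => by
      have : κ p.2 = 0 := image_eq_zero_of_notMem_tsupport fun h => hp ⟨trivial, h⟩
      simp [ft, this]
  exact ⟨d, c 2 h1, fun p => e p trivial, z⟩

theorem rat_mul_smul {o a τ τ' : Fm 3 Y} {p : Y} {c : ℝ} (h : τ' p = c • τ p) :
    rat o (a * τ') p = c * rat o (a * τ) p := by
  rw [rat, rat, Pi.mul_apply, Pi.mul_apply, h, mul_smul_comm, map_smul, smul_eq_mul, mul_div_assoc]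

theorem rat_add_smul (o a d τ : Fm 3 Y) (n : ℝ) (p : Y) :
    rat o ((a + n • d) * τ) p = rat o (a * τ) p + n * rat o (d * τ) p := by
  simp only [rat, Pi.mul_apply, Pi.add_apply, Pi.smul_apply, add_mul, smul_mul_assoc, map_add,
    map_smul, smul_eq_mul, add_div, mul_div_assoc]

/-- **`HEL*`** -/
theorem hel : HelStmt := by
  intro Y R o β τ τ' U U' oR ν θ b k ho hR hb hc hβ hτ s1 s2 s3 dy off dν hθ pos hk eq ι _ a ha
  have out : ∀ q, ∀ p ∈ U, p ∉ slab b (Ioo (-1) 1) → 0 < rat o (a q * τ) p := fun q p hp hn => by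
    by_cases h : p ∈ U'
    · obtain ⟨f, f0, e⟩ := off p h hn
      have := (ha q).2.2 p h
      rw [rat_mul_smul e] at this
      exact (pos_iff_pos_of_mul_pos this).1 f0
    · obtain ⟨C, -, c2, c3⟩ := (ha q).2.1
      have := hβ.2.2 p hp
      rwa [rat, Pi.mul_apply, ← c3 p fun k => h (c2 k)] at this
  have ct : ∀ {c : Fm 3 Y}, Z2 c → ∀ p ∈ (univ : Set R) ×ˢ Icc (-1 : ℝ) 1,
      ContinuousAt (fun p => rat o (c * τ) (b p)) p := fun hc p hp =>
    ContinuousAt.comp (f := b) (Orx52.contAt_rat (ho.sm _) (ho.ne _)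
      ((hc.sm _ trivial).mul (hτ _ (s1 ⟨p, hp, rfl⟩)))) hb.continuous.continuousAt
  have hK : IsCompact ((univ : Set R) ×ˢ Icc (-1 : ℝ) 1) := isCompact_univ.prod isCompact_Icc
  obtain ⟨κ, k1, k2, k3, k4⟩ := exists_bump (S := ⋃ q, Prod.snd ''
      ((univ ×ˢ Icc (-1 : ℝ) 1) ∩ (fun p => rat o (a q * τ) (b p)) ⁻¹' Iic 0))
    (isCompact_iUnion fun q => (hK.of_isClosed_subset
      (ContinuousOn.preimage_isClosed_of_isClosed (fun p hp => (ct (ha q).1 p hp).continuousWithinAt)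
        hK.isClosed isClosed_Iic) inter_subset_left).image continuous_snd) one_pos
    (iUnion_subset fun q => by
      rintro _ ⟨p, hp, rfl⟩
      by_contra hn
      exact (out q _ (s1 ⟨p, hp.1, rfl⟩) fun h => hn ((Orx52.mem_slab hb).1 h)).not_ge hp.2)
  have kc : IsCompact (tsupport κ) :=
    isCompact_Icc.of_isClosed_subset (isClosed_tsupport _) (k2.trans Ioo_subset_Icc_self)
  obtain ⟨d, d1, d2, d3⟩ := exists_dyth hb hθ k1 kc
  have key : ∀ p : R × ℝ, p.2 ∈ Ioo (-1 : ℝ) 1 →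
      rat (OO oR) (pm (IR 2) (𝓡 3) b (d * τ)) p = κ p.2 * rat oR (θ * ν) p.1 := fun p hp => by
    rw [Sym24.rat_OO, pm_mul, Pi.mul_apply, d2, eq p.1 p.2 hp, smul_mul_assoc, mul_add,
      mul_smul_comm, ← mul_one (dT (EE 2)), mul_assoc _ 1, one_mul,
      Sym24.dT_mul_dT (a := pu θ p) (Sym24.isDeg_up (hθ.dg _ trivial)), smul_zero, zero_add, mul_assoc, pu, pu,
      ← map_mul, map_smul, Sym24.nc_dT_mul, Sym24.dn_up, map_smul, smul_eq_mul, rat, mul_div_assoc]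
    rfl
  have nn : ∀ x, 0 ≤ rat oR (θ * ν) x := fun x => by
    by_cases h : ν x = 0
    · simp [rat, h]
    · exact (pos x h).le
  have d0 : ∀ p, p ∉ slab b (Ioo (-1) 1) → rat o (d * τ) p = 0 := fun p hp => by
    rw [rat, Pi.mul_apply, d3 p fun h => hp (image_mono (prod_mono subset_rfl k2) h)]
    simp
  have big : ∀ q, ∀ᶠ n : ℝ in atTop, ∀ p ∈ (univ : Set R) ×ˢ Icc (-1 : ℝ) 1,
      0 < rat o (a q * τ) (b p) + n * rat o (d * τ) (b p) := fun q => by
    refine exists_large hK (ct (ha q).1) (ct d1) (fun p _ => ?_) fun p hp => ?_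
    · by_cases h : p.2 ∈ Ioo (-1 : ℝ) 1
      · refine nonneg_ld (hb.loc p) (hc p trivial) ?_
        exact (key p h).symm ▸ mul_nonneg (k3 _) (nn _)
      · rw [d0 _ fun k => h ((Orx52.mem_slab hb).1 k)]
    · refine or_iff_not_imp_right.2 fun hn => ?_
      have m : p.2 ∈ ⋃ q, Prod.snd '' ((univ ×ˢ Icc (-1 : ℝ) 1) ∩
        (fun p => rat o (a q * τ) (b p)) ⁻¹' Iic 0) := mem_iUnion.2 ⟨q, p, ⟨hp, not_lt.1 hn⟩, rfl⟩
      have h : p.2 ∈ Ioo (-1 : ℝ) 1 := k2 (subset_tsupport _ (by simp [k4 _ m]))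
      refine (pos_ld (hb.loc p) (hc p trivial) _).2 ?_
      refine (key p h).symm ▸ ?_
      rw [k4 _ m, one_mul]
      refine pos _ fun h0 => hn ?_
      obtain ⟨f, f0, e⟩ := dy p.1 p.2 h
      have : τ (b p) = ((k p / f) • τ') (b p) := eq_of_pm (hb.loc p) (by
        rw [pm_smul, Pi.smul_apply, e, eq p.1 p.2 h, pu, h0, map_zero, add_zero, smul_smul,
          div_mul_cancel₀ _ f0.ne'])
      rw [rat_mul_smul this]
      exact mul_pos (div_pos (hk p) f0) ((ha q).2.2 _ (s3 ⟨p, ⟨trivial, h⟩, rfl⟩))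
  obtain ⟨n, hn, n0⟩ := ((eventually_all.2 big).and (eventually_gt_atTop 0)).exists
  refine ⟨fun y => n * κ y, n • d, contDiff_const.mul k1, (tsupport_mul_subset_right).trans k2,
    d1.smul n, fun p => by rw [pm_smul, Pi.smul_apply, d2, smul_smul], fun p hp => by
      rw [Pi.smul_apply, d3 p fun h => hp (image_subset_range _ _ h), smul_zero],
    fun q => ⟨(ha q).1.add (d1.smul n), ?_, fun p hp => ?_⟩⟩
  · obtain ⟨C, c1, c2, c3⟩ := (ha q).2.1
    refine ⟨C ∪ slab b (tsupport κ), c1.union (isCompact_slab hb kc).isClosed, union_subset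
      (c2.trans s2) ((image_mono (prod_mono subset_rfl (k2.trans Ioo_subset_Icc_self))).trans s1),
      fun p hp => ?_⟩
    rw [Pi.add_apply, Pi.smul_apply, d3 p fun h => hp (.inr h), smul_zero, add_zero,
      c3 p fun h => hp (.inl h)]
  · rw [rat_add_smul]
    by_cases h : p ∈ slab b (Ioo (-1) 1)
    · obtain ⟨p, h, rfl⟩ := h
      exact hn q p ⟨trivial, Ioo_subset_Icc_self h.2⟩
    · rw [d0 p h, mul_zero, add_zero]
      exact out q p hp h

theorem pm_prod_pu {Y' : CM 3} {f : Y' → Y} (hf : ContMDiff (𝓡 3) (𝓡 3) ∞ f) (a : Fm 3 Y)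
    (p : Y' × ℝ) : pm (IR 3) (IR 3) (Prod.map f id) (pu a) p = pu (pm (𝓡 3) (𝓡 3) f a) p := by
  have h := hf.mdifferentiable ne0
  rw [← Sym24.pm_fst (I := 𝓡 3), ← Sym24.pm_fst (I := 𝓡 3),
    pm_comp mdifferentiableAt_fst ((h _).prodMap mdifferentiableAt_id),
    pm_comp (h _) mdifferentiableAt_fst]
  rfl

theorem En.re {Y' : CM 3} {X : Type} [TopologicalSpace X] [ChartedSpace (EE 4) X]
    [IsManifold (𝓡 4) ∞ X] {j : Y × ℝ → X} (hj : IsOE (IR 3) (𝓡 4) j) {f : Y' → Y}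
    (hf : ContMDiff (𝓡 3) (𝓡 3) ∞ f) {a : Fm 4 X} {b : Fm 3 Y} (h : En j a b) :
    En (j ∘ Prod.map f id) a (pm (𝓡 3) (𝓡 3) f b) := by
  obtain ⟨ε, e0, h⟩ := h
  refine ⟨ε, e0, fun p hp => ?_⟩
  rw [← pm_comp (hj.contMDiff.mdifferentiable ne0 _)
    ((hf.mdifferentiable ne0 _).prodMap mdifferentiableAt_id), ← pm_prod_pu hf]
  exact pm_congr_right (h _ hp)

/-- **transport of universal caps along a diffeomorphism** -/
theorem re : ReStmt := by
  rintro P hP Y Y' f o o' A A' h hA ⟨C, c1, O, o1, o2, o3⟩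
  refine ⟨C.re f, hP.re _ _ C f c1, O, o1, ?_, fun c ι _ ζ β hζ hβ he => ?_⟩
  · have k := Orx52.Pos.cy (t := univ) h (fun y _ => f.isLocalDiffeomorph y)
      (fun x _ => hasDerivAt_id x) fun _ _ => one_pos
    rw [univ_prod_univ] at k
    have k' : Cy o' O (C.j ∘ Prod.map f id) := Orx52.Pos.comp o2 k (fun y _ => C.oe.loc y)
      (fun y _ => ld_prodMap (f.isLocalDiffeomorph _) (ld_id _)) (mapsTo_univ _ _)
    exact k'
  · obtain ⟨d, rfl, v, v1, v2, la, l1, l2, l3⟩ := o3 c ι ζ (fun q => pm (𝓡 3) (𝓡 3) f.symm (β q))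
      hζ (fun q => hA _ (hβ q)) fun q => by
        have k := En.re (sh (C.re f) c).oe f.symm.contMDiff (he q)
        rwa [show (sh (C.re f) c).j ∘ Prod.map f.symm id = (sh C c).j from
          funext fun p => by simp [sh, End.re]] at k
    refine ⟨0, rfl, v, v1, ?_, la, l1, fun q => ?_, fun q r x hx => l3 q r x ?_⟩
    · have k := En.re (sh C c).oe f.contMDiff v2
      rw [pm_zero] at k
      exact k
    · funext y
      have e : ∀ {Z : CM 3} (D : End Z) (a : Fm 4 D.X) (z : Z), sl 0 (pm (IR 3) (𝓡 4) D.j a) z =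
          pm (𝓡 3) (𝓡 4) (fun z => D.j (z, 0)) a z := fun D a z => by
        rw [← Sym24.pm_inl (I := 𝓡 3)]
        exact pm_comp (D.oe.contMDiff.mdifferentiable ne0 _)
          (mdifferentiableAt_id.prodMk mdifferentiableAt_const)
      have k := pm_comp (I := 𝓡 4) (g := fun z => (sh C c).j (z, 0)) (a := la q) (z := y)
        (((sh C c).oe.contMDiff.mdifferentiable ne0 _).comp _
          (mdifferentiableAt_id.prodMk mdifferentiableAt_const)) (f.contMDiff.mdifferentiable ne0 y)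
      rw [e]
      refine k.symm.trans ?_
      rw [← funext (e (sh C c) (la q)), l2, pm_zero]
    · rintro ⟨p, hp, rfl⟩
      exact hx ⟨(f.symm p.1, p.2), hp, by simp [sh, End.re]⟩

end Crest.Agent.X212.Hel3
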