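import Crest.Agent.X212.Hel3.Sig
import Crest.Agent.X212.Sym24.Main

/-!
# X212/Hel3/Col (helper3): `H7.ColStmt` from `H7.Top2Stmt`
-/

set_option autoImplicit false
set_option linter.unusedSectionVars false

open Set Filter Topology Function
open scoped ContDiff Manifold
open Crest.Agent.R208 Crest.Agent.R208.F Crest.Agent.R208.FI Crest.Agent.X212.Dr59
  Crest.Agent.X212.Int54 Crest.Agent.X212.Cyl58
open Crest.Agent.X212.Sep15 (EE IR CM Box slab)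
open Crest.Agent.X212.Sym24 (pu dT dt OO nc dn up sl)
open Crest.Agent.X212.Bb31
open Crest.Agent.X212.H7 (Top2Stmt ColStmt)

noncomputable section

namespace Crest.Agent.X212.Hel3

variable {Y : CM 3} {R : CM 2}

/-- the wedge with a helical form -/
theorem rat_hel {b : R × ℝ → Y} {w τ : Fm 3 Y} {oR ν : Fm 2 R} {k : ℝ} {p : R × ℝ}
    (hw : IsDeg 2 (w (b p))) (h : pm (IR 2) (𝓡 3) b τ p = k • dT (EE 2) + pu ν p) :
    rat (OO oR) (pm (IR 2) (𝓡 3) b (w * τ)) p =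
      tp (EE 2) (nc (pm (IR 2) (𝓡 3) b w p) * ν p.1) / tp (EE 2) (oR p.1) +
        k * rat oR (sl p.2 (pm (IR 2) (𝓡 3) b w)) p.1 := by
  have n1 : nc (dT (EE 2)) = 1 := by simpa using Sym24.nc_dT_mul (E := EE 2) 1
  rw [Sym24.rat_OO, pm_mul, Pi.mul_apply, h, Sym24.nc_mul2 (a := pm (IR 2) (𝓡 3) b w p) (hw.pb _)]
  simp only [pu, map_add, map_smul, Sym24.dn_dT, Sym24.dn_up, Sym24.nc_up, n1, smul_zero, zero_add,
    add_zero, smul_mul_assoc, one_mul, smul_eq_mul, add_div, rat, sl, mul_div_assoc]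

theorem rat_sl_add (oR : Fm 2 R) (b : R × ℝ → Y) (a d : Fm 3 Y) (n y : ℝ) (x : R) :
    rat oR (sl y (pm (IR 2) (𝓡 3) b (a + n • d))) x =
      rat oR (sl y (pm (IR 2) (𝓡 3) b a)) x + n * rat oR (sl y (pm (IR 2) (𝓡 3) b d)) x := by
  simp only [rat, sl, pm_add, pm_smul, Pi.add_apply, Pi.smul_apply, map_add, map_smul, smul_eq_mul,
    add_div, mul_div_assoc]

/-- **`COL`** -/
theorem col (top2 : Top2Stmt) : ColStmt := by
  rintro Y R o β τ U oR ν b hpc ho hR hb hc ⟨dν, θ, -, -, hθ, pos, -⟩ ⟨s1, hτ, dτ, k, hk, eq⟩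
    ⟨c, e₁, e₂, L, hC⟩ ⟨hβ, -, pβ⟩
  obtain ⟨σ, K, hσ, k1, k2, k3, k4, k5, k6, k7⟩ :=
    exists_sig ho hR hb hc (fun a => top2 R oR a hpc hR) hC
  have cs : ∀ {w : Fm 3 Y}, Z2 w → ∀ p : R × ℝ,
      ContinuousAt (fun p : R × ℝ => rat oR (sl p.2 (pm (IR 2) (𝓡 3) b w)) p.1) p := fun hw p => by
    simp only [← Sym24.rat_OO_dt]
    exact Orx52.contAt_rat ((Sym24.ori_OO hR).sm p) ((Sym24.ori_OO hR).ne p)
      ((Sym24.smAt_dt p).mul ((hw.sm _ trivial).pm (hb.contMDiff p)))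
  obtain ⟨N, hN, N0⟩ := ((exists_large (isCompact_univ.prod (isCompact_Icc (a := (-1 : ℝ)) (b := 1)))
    (fun p _ => cs hβ p) (fun p _ => cs hσ p) (fun p hp => (k4 _ _ hp.2).le)
    fun p hp => .inl (k4 _ _ hp.2)).and (eventually_gt_atTop 0)).exists
  obtain ⟨κ, c1, c2, c3, c4⟩ := exists_bump (S := Icc (-2) 2) isCompact_Icc three_pos
    (Icc_subset_Ioo (by norm_num) (by norm_num))
  have kc : IsCompact (tsupport κ) :=
    isCompact_Icc.of_isClosed_subset (isClosed_tsupport _) (c2.trans Ioo_subset_Icc_self)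
  obtain ⟨d, d1, d2, d3⟩ := exists_dyth hb hθ c1 kc
  have ds : ∀ y x, rat oR (sl y (pm (IR 2) (𝓡 3) b d)) x = 0 := fun y x => by
    simp [rat, sl, d2]
  have key : ∀ p : R × ℝ, p.2 ∈ Ioo (-3 : ℝ) 3 →
      rat (OO oR) (pm (IR 2) (𝓡 3) b (d * τ)) p = κ p.2 * rat oR (θ * ν) p.1 := fun p hp => by
    rw [rat_hel (d1.dg _ trivial) (eq p.1 p.2 hp), ds, d2]
    simp [rat, pu, mul_div_assoc]
  have nn : ∀ x, 0 ≤ rat oR (θ * ν) x := fun x => by
    by_cases h : ν x = 0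
    · simp [rat, h]
    · exact (pos x h).le
  have dn : ∀ p, 0 ≤ rat o (d * τ) p := fun p => by
    by_cases h : p ∈ slab b (Ioo (-3) 3)
    · obtain ⟨p, h, rfl⟩ := h
      exact nonneg_ld (hb.loc p) (hc p trivial) ((key p h.2).symm ▸ mul_nonneg (c3 _) (nn _))
    · rw [rat, Pi.mul_apply, d3 p fun h' => h (image_mono (prod_mono subset_rfl c2) h')]
      simp
  have sn : ∀ p : R × ℝ, p.2 ∈ Ioo (-3 : ℝ) 3 → nc (pm (IR 2) (𝓡 3) b σ p) * ν p.1 = 0 →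
      0 ≤ rat o (σ * τ) (b p) := fun p hp h => by
    refine nonneg_ld (hb.loc p) (hc p trivial) ((rat_hel (hσ.dg _ trivial) (eq p.1 p.2 hp)).symm ▸ ?_)
    rw [h, map_zero, zero_div, zero_add]
    exact mul_nonneg (hk _).le (k5 _ _ hp)
  have i1 : Icc (-2 : ℝ) 2 ⊆ Ioo (-3) 3 := Icc_subset_Ioo (by norm_num) (by norm_num)
  have hU : ∀ p : R × ℝ, p.2 ∈ Ioo (-3 : ℝ) 3 → b p ∈ U := fun p hp =>
    s1 ⟨p, ⟨trivial, Ioo_subset_Icc_self hp⟩, rfl⟩
  have ct : ∀ {w : Fm 3 Y}, Z2 w → ∀ p ∈ (univ : Set R) ×ˢ Icc (-2 : ℝ) 2,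
      ContinuousAt (fun p => rat o (w * τ) (b p)) p := fun hw p hp =>
    ContinuousAt.comp (f := b) (Orx52.contAt_rat (ho.sm _) (ho.ne _)
      ((hw.sm _ trivial).mul (hτ _ (hU p (i1 hp.2))))) hb.continuous.continuousAt
  have h1 : Z2 (β + N • σ) := hβ.add (hσ.smul N)
  obtain ⟨C, hC', C0⟩ := ((exists_large (isCompact_univ.prod isCompact_Icc) (ct h1) (ct d1)
    (fun p _ => dn _) fun p hp => by
      by_cases h : ν p.1 = 0
      · right
        rw [rat_add_smul]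
        exact add_pos_of_pos_of_nonneg (pβ _ (hU p (i1 hp.2)))
          (mul_nonneg N0.le (sn p (i1 hp.2) (by rw [h, mul_zero])))
      · refine .inl ((pos_ld (hb.loc p) (hc p trivial) _).2 ((key p (i1 hp.2)).symm ▸ ?_))
        rw [c4 _ hp.2, one_mul]
        exact pos _ h).and (eventually_gt_atTop 0)).exists
  have s2 : slab b (Ioo (-3) 3) ⊆ U := by
    rintro _ ⟨p, hp, rfl⟩
    exact hU p hp.2
  refine ⟨β + N • σ + C • d, ⟨h1.add (d1.smul C), ⟨K ∪ slab b (tsupport κ),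
    k1.union (isCompact_slab hb kc).isClosed, union_subset (k2.trans (union_subset s2 ?_))
      ((image_mono (prod_mono subset_rfl c2)).trans s2), fun p hp => ?_⟩, fun p hp => ?_⟩,
    fun x y hy => ?_⟩
  · rintro _ ⟨z, hz, rfl⟩
    exact hC.sub z hz.2
  · simp [k3 p fun h => hp (.inl h), d3 p fun h => hp (.inr h)]
  · rw [rat_add_smul]
    by_cases h : p ∈ slab b (Icc (-2) 2)
    · obtain ⟨p, h, rfl⟩ := h
      exact hC' p h
    rw [rat_add_smul]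
    refine add_pos_of_pos_of_nonneg (add_pos_of_pos_of_nonneg (pβ p hp) (mul_nonneg N0.le ?_))
      (mul_nonneg C0.le (dn p))
    by_cases h' : p ∈ K
    · rcases k2 h' with ⟨q, hq, rfl⟩ | ⟨z, hz, rfl⟩
      · exact sn q hq.2 (by rw [k6 q hq.2 fun j => h ⟨q, ⟨trivial, j⟩, rfl⟩, zero_mul])
      · exact k7 z hz.2 (dτ _ hp)
    · simp [rat, k3 p h']
  · rw [rat_sl_add, rat_sl_add, ds, mul_zero, add_zero]
    exact hN (x, y) ⟨trivial, hy⟩

end Crest.Agent.X212.Hel3
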