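import Crest.Agent.X212.Hel3.Hel
import Crest.Agent.X212.Bb31.Fp
import Crest.Agent.X212.Orx52.Rod

/-!
# X212/Hel3/Base (helper3): `Bb31.BaseStmt`, the cap `R × ℂ` is universal
-/

set_option autoImplicit false
set_option linter.unusedSectionVars false

open Set Filter Topology Function Metric
open scoped ContDiff Manifold
open Crest.Agent.R208 Crest.Agent.R208.F Crest.Agent.R208.FI Crest.Agent.X212.Dr59 Crest.Agent.X212.Cyl58
open Crest.Agent.X212.Int54 (tp rat Ori SameOn)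
open Crest.Agent.X212.Sep15 (EE IR IC CM End Bs)
open Crest.Agent.X212.Sym24 (pu dt sl dT)
open Crest.Agent.X212.Orx52 (oZ oC pr cy)
open Crest.Agent.X212.Bb31

noncomputable section

namespace Crest.Agent.X212.Hel3

variable {Y : CM 3} {R : CM 2}

theorem eq_rat_oZ {a : ℂ → Ext ℂ} {z : ℂ} (h : IsDeg 2 (a z)) : a z = rat oZ a z • oZ z := by
  have e : Module.finrank ℝ ℂ = 2 := Complex.finrank_real_complex
  have k := Orx52.eq_top (c := oZ z) (e ▸ Orx52.dg_oZ (s := univ) z trivial)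
  rw [Orx52.eq_top (c := a z) (e ▸ h), rat]
  conv_rhs => rw [k, smul_smul, ← k, div_mul_cancel₀ _ (oZ_ne z)]

/-- an area form on the closed disc, exact up to a term supported inside, with a primitive which
vanishes on the boundary -/
theorem exists_disc {ρ : ℝ} (hρ : 0 < ρ) : ∃ (l : ℂ → Ext ℂ) (g u : ℂ → ℝ) (r : ℝ),
    Sm 𝓘(ℝ, ℂ) univ l ∧ Dg 1 univ l ∧ (∀ z, ‖z‖ = ρ → l z = 0) ∧ ContDiff ℝ ∞ g ∧ 0 < r ∧ r < ρ ∧
    (∀ z, r ≤ ‖z‖ → g z = 0) ∧ (∀ z, (g • oZ - dM 𝓘(ℝ, ℂ) l) z = u z • oZ z) ∧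
    ∀ z, ‖z‖ ≤ ρ → 0 < u z := by
  let h : ℂ → ℝ := fun z => z.re * z.re + z.im * z.im - ρ ^ 2
  let μ : ℂ → Ext ℂ := Complex.re • df 𝓘(ℝ, ℂ) Complex.im - Complex.im • df 𝓘(ℝ, ℂ) Complex.re
  have c1 : ContMDiff 𝓘(ℝ, ℂ) 𝓘(ℝ, ℝ) ∞ Complex.re := Complex.reCLM.contDiff.contMDiff
  have c2 : ContMDiff 𝓘(ℝ, ℂ) 𝓘(ℝ, ℝ) ∞ Complex.im := Complex.imCLM.contDiff.contMDiff
  have c3 : ContMDiff 𝓘(ℝ, ℂ) 𝓘(ℝ, ℝ) ∞ h := ((c1.mul c1).add (c2.mul c2)).sub contMDiff_const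
  have s1 : Sm 𝓘(ℝ, ℂ) univ μ := ((sm_df fun z _ => c2 z).fsmul fun z _ => c1 z).sub
    ((sm_df fun z _ => c1 z).fsmul fun z _ => c2 z)
  have s2 : Sm 𝓘(ℝ, ℂ) univ (h • μ) := s1.fsmul fun z _ => c3 z
  have g2 : Dg 1 univ (h • μ) := (((dg_df _).fsmul _).sub ((dg_df _).fsmul _)).fsmul _
  have h0 : ∀ z, ‖z‖ = ρ → h z = 0 := fun z hz => by
    simp only [h]
    rw [← Complex.normSq_apply, Complex.normSq_eq_norm_sq, hz, sub_self]
  have cu : Continuous (rat oZ (dM 𝓘(ℝ, ℂ) (h • μ))) := continuous_iff_continuousAt.2 fun z =>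
    Orx52.contAt_rat (Orx52.ori_oZ.sm z) (oZ_ne z) (s2 z trivial).dM
  have bd : ∀ z, ‖z‖ = ρ → 0 < rat oZ (dM 𝓘(ℝ, ℂ) (h • μ)) z := fun z hz => by
    have d : HasFDerivAt h ((2 * z.re) • Complex.reCLM + (2 * z.im) • Complex.imCLM) z := by
      rw [two_mul, two_mul, add_smul, add_smul]
      exact ((Complex.reCLM.hasFDerivAt.mul Complex.reCLM.hasFDerivAt).add
        (Complex.imCLM.hasFDerivAt.mul Complex.imCLM.hasFDerivAt)).sub_const (ρ ^ 2)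
    have e : dM 𝓘(ℝ, ℂ) (h • μ) z = (2 * ρ ^ 2) • oZ z := by
      have e1 : df 𝓘(ℝ, ℂ) h z =
          (2 * z.re) • df 𝓘(ℝ, ℂ) Complex.re z + (2 * z.im) • df 𝓘(ℝ, ℂ) Complex.im z := by
        rw [df, df, df, mf_eq_fderiv, mf_eq_fderiv, mf_eq_fderiv, d.fderiv,
          show Complex.re = Complex.reCLM from rfl, show Complex.im = Complex.imCLM from rfl,
          ContinuousLinearMap.fderiv, ContinuousLinearMap.fderiv, ← map_smul, ← map_smul, ← map_add]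
        rfl
      have e2 := h0 z hz
      rw [dM_fsmul ne0 (c3.mdifferentiable ne0 z) (s1 z trivial), e2, zero_smul, add_zero, e1]
      simp only [μ, oZ, df, Pi.sub_apply, Pi.smul_apply', Pi.mul_apply, add_mul, mul_sub,
        smul_mul_smul_comm, io_sq, smul_zero,
        io_anti (mf 𝓘(ℝ, ℂ) 𝓘(ℝ, ℝ) Complex.im z : ℂ →ₗ[ℝ] ℝ) (mf 𝓘(ℝ, ℂ) 𝓘(ℝ, ℝ) Complex.re z)]
      simp only [h] at e2
      linear_combination (norm := module) (2 * e2) • (io (mf 𝓘(ℝ, ℂ) 𝓘(ℝ, ℝ) Complex.re z :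
        ℂ →ₗ[ℝ] ℝ) * io (mf 𝓘(ℝ, ℂ) 𝓘(ℝ, ℝ) Complex.im z : ℂ →ₗ[ℝ] ℝ))
    rw [rat, e, map_smul, smul_eq_mul, mul_div_cancel_right₀ _ (oZ_ne z)]
    positivity
  obtain ⟨r, ⟨r0, r1⟩, hr⟩ := exists_pos_lt_subset_ball hρ
    (s := closedBall (0 : ℂ) ρ ∩ rat oZ (dM 𝓘(ℝ, ℂ) (h • μ)) ⁻¹' Iic 0)
    (isClosed_closedBall.inter (isClosed_Iic.preimage cu)) fun z hz => mem_ball_zero_iff.2
      ((mem_closedBall_zero_iff.1 hz.1).lt_of_ne fun e => (bd z e).not_ge hz.2)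
  let f : ContDiffBump (0 : ℂ) := ⟨r, (r + ρ) / 2, r0, by linarith⟩
  obtain ⟨n, hn⟩ := (exists_large (isCompact_closedBall (0 : ℂ) ρ) (fun z _ => cu.continuousAt)
    (G := f) (fun z _ => f.continuous.continuousAt) (fun z _ => f.nonneg) fun z hz =>
      or_iff_not_imp_right.2 fun k => by
        rw [f.one_of_mem_closedBall (ball_subset_closedBall (hr ⟨hz, not_lt.1 k⟩))]
        exact one_pos).exists
  refine ⟨-(h • μ), fun z => n * f z, fun z => rat oZ (dM 𝓘(ℝ, ℂ) (h • μ)) z + n * f z, (r + ρ) / 2,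
    s2.neg, g2.neg, fun z hz => by simp [h0 z hz], contDiff_const.mul f.contDiff, by linarith,
    by linarith, fun z hz => mul_eq_zero_of_right _ (f.zero_of_le_dist (by simpa using hz)), fun z => ?_,
    fun z hz => hn z (mem_closedBall_zero_iff.2 hz)⟩
  rw [dM_neg, sub_neg_eq_add, Pi.add_apply, add_smul, ← eq_rat_oZ (g2.dM isOpen_univ z trivial),
    add_comm]
  rfl

/-- the universal property on `R × ℂ` -/
theorem exists_gd {o : Fm 2 R} (ho : Ori (𝓡 2) o) {ρ : ℝ} (hρ : 0 < ρ) {ι : Type} [Finite ι]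
    {c : ι → Fc R} (hc : ∀ q, Cl IC 2 univ (c q)) (hp : ∀ q, ∃ r < ρ, FP o (c q) {z | r < ‖z‖}) :
    ∃ (v : Fc R) (la : ι → Fc R) (r : ℝ), Cl IC 2 univ v ∧ 0 < r ∧ r < ρ ∧
      (∀ p : R × ℂ, r ≤ ‖p.2‖ → v p = 0) ∧ (∀ q, Sm IC univ (la q) ∧ Dg 1 univ (la q)) ∧
      (∀ q (p : R × ℂ), ‖p.2‖ = ρ → la q p = 0) ∧ ∀ q q', ∀ p : R × ℂ, ‖p.2‖ ≤ ρ →
        0 < rat (oP o) ((c q + v - dM IC (la q)) * (c q' + v - dM IC (la q'))) p := by
  choose r r1 r2 using hp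
  choose la Q l1 l2 _ l4 l5 l6 using fun q => exists_fp ho (hc q) (isCompact_closedBall 0 ρ)
    (isOpen_lt continuous_const continuous_norm) (isOpen_ball (x := 0) (ε := ρ)) (r2 q)
    ⟨ρ, by simpa [abs_of_pos hρ] using r1 q⟩ fun z _ => (lt_or_ge (r q) ‖z‖).imp id fun h =>
      mem_ball_zero_iff.2 (h.trans_lt (r1 q))
  obtain ⟨l, g, u, s, d1, d2, d3, d4, s0, s1, d5, d6, d7⟩ := exists_disc hρ
  have sl : Sm IC univ (ar R l) := d1.pm mp_snd'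
  have e : ∀ p, (ar R (g • oZ) - dM IC (ar R l)) p = u p.2 • ar R oZ p := fun p => by
    rw [Pi.sub_apply, ar, ar, dM_pm ne0 contMDiffAt_snd (d1 _ trivial), ← Pi.sub_apply, ← pm_sub,
      pm_apply, d6, map_smul, ← pm_apply]
    rfl
  have pos : ∀ q, ∀ p ∈ (univ : Set R) ×ˢ closedBall (0 : ℂ) ρ,
      0 < rat (oP o) ((c q - dM IC (la q)) * (ar R (g • oZ) - dM IC (ar R l))) p := fun q p hp => by
    have k := rat_mul_ar o (c q - dM IC (la q)) p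
    rw [rat, Pi.mul_apply] at k ⊢
    rw [e, mul_smul_comm, map_smul, smul_eq_mul, mul_div_assoc, k]
    exact mul_pos (d7 _ (mem_closedBall_zero_iff.1 hp.2)) (l6 q _ hp.2 _)
  obtain ⟨n, -, hn⟩ := thurston (w := fun q => c q - dM IC (la q))
    (γ := ar R (g • oZ) - dM IC (ar R l)) (isCompact_univ.prod (isCompact_closedBall (0 : ℂ) ρ))
    (Orx52.ori_pr ho Orx52.ori_oZ) (fun q => ((hc q).sm.sub (l1 q).dM).mono (subset_univ _))
    (((cl_ar d4).sm.sub sl.dM).mono (subset_univ _))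
    (((cl_ar d4).dg.sub ((d2.pm (mapsTo_univ _ _)).dM isOpen_univ)).mono (subset_univ _))
    (fun p _ => by
      rw [e, smul_mul_smul_comm, ar_mul_ar (Orx52.dg_oZ (s := univ) _ trivial), smul_zero])
    (fun q p hp => (pos q p hp).le) fun p hp => .inl fun q => pos q p hp
  refine ⟨n • ar R (g • oZ), fun q => la q + n • ar R l, s, (cl_ar d4).smul n, s0, s1, fun p hp => by
    rw [Pi.smul_apply, ar_smul, d5 _ hp, zero_smul, smul_zero], fun q => ⟨(l1 q).add (sl.smul n),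
    (l2 q).add ((d2.pm (mapsTo_univ _ _)).smul n)⟩, fun q p hp => ?_, fun q q' p hp => ?_⟩
  · show la q p + n • ar R l p = 0
    rw [ar_apply, d3 _ hp, map_zero, smul_zero, add_zero]
    exact l5 q p fun h => (mem_ball_zero_iff.1 (l4 q h)).ne hp
  · have k : ∀ q, (c q + n • ar R (g • oZ) - dM IC (la q + n • ar R l)) p =
        (c q - dM IC (la q) + n • (ar R (g • oZ) - dM IC (ar R l))) p := fun q => by
      simp only [Pi.add_apply, Pi.sub_apply, Pi.smul_apply, smul_sub,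
        dM_add ne0 (l1 q p trivial) ((sl p trivial).smul n), dM_smul ne0 n (sl p trivial)]
      abel
    have := hn q q' p ⟨trivial, mem_closedBall_zero_iff.2 hp⟩
    rwa [rat, Pi.mul_apply, ← k, ← k] at this

/-- polar coordinates on `R × ℂ` -/
def pl (p : (R × Circle) × ℝ) : R × ℂ := (p.1.1, (Real.exp p.2 : ℝ) * (p.1.2 : ℂ))

/-- the model of `R × S¹` -/
abbrev IS : ModelWithCorners ℝ (EE 2 × EE 1) (ModelProd (EE 2) (EE 1)) := (𝓡 2).prod (𝓡 1)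

theorem sm_exp : ContMDiff (IS.prod 𝓘(ℝ, ℝ)) 𝓘(ℝ, ℝ) ∞ fun p : (R × Circle) × ℝ => Real.exp p.2 :=
  Real.contDiff_exp.contMDiff.comp contMDiff_snd

theorem sm_pl : ContMDiff (IS.prod 𝓘(ℝ, ℝ)) IC ∞ (pl : (R × Circle) × ℝ → _) :=
  (contMDiff_fst.comp contMDiff_fst).prodMk fun p => Pj41.FSm.mul' (Pj41.FSm.ofReal (sm_exp p))
    ((Glue52.contMDiff_circle_coe.comp (contMDiff_snd.comp contMDiff_fst)) p)

theorem pos_pl {o : Fm 2 R} (ho : Ori (𝓡 2) o) (hd : Dg 2 univ o) :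
    Orx52.Pos (IS.prod 𝓘(ℝ, ℝ)) IC pl univ (cy (pr o oC)) (oP o) := by
  refine Orx52.pos_of_eq (Orx52.oriOn (Orx52.ori_cy (Orx52.ori_pr ho Orx52.ori_oC)) _)
    (c := fun p => Real.exp p.2 * Real.exp p.2) (fun p _ => by positivity) fun p _ => ?_
  have h1 := Orx52.pm_oZ_polar (sm_exp p) ((contMDiff_snd.comp contMDiff_fst) p)
  have h2 := Orx52.df_snd_comp (J := IS) (z := p) (Real.hasDerivAt_exp p.2)
  have h3 := Orx52.pm_oC (((contMDiff_snd (I := 𝓡 2) (J := 𝓡 1)).comp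
    (contMDiff_fst (J := 𝓘(ℝ, ℝ)))).mdifferentiable ne0 p)
  rw [Orx52.pm_pr (sm_pl.mdifferentiable ne0 p), Orx52.cy_eq IS, Pi.mul_apply,
    Orx52.pm_pr mdifferentiableAt_fst, h3, Sym24.df_snd, ← mul_assoc,
    Sym24.comm2 (c := pm _ _ (Prod.fst ∘ Prod.fst) o p) ((hd _ trivial).pb _), mul_assoc]
  refine (congrArg _ h1).trans ?_
  rw [show (fun p : (R × Circle) × ℝ => Real.exp p.2) = Real.exp ∘ Prod.snd from rfl, h2,
    smul_mul_assoc, smul_smul, mul_smul_comm]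
  rfl

theorem fib_pos {o β τ : Fm 3 Y} {oR : Fm 2 R} {f : R × Circle → Y} {p : R × Circle}
    (hf : IsLocalDiffeomorphAt IS (𝓡 3) ∞ f p) (h : SameOn (pm IS (𝓡 3) f o) (pr oR oC) univ)
    (hτ : ∃ c > (0 : ℝ), pm IS (𝓡 3) f τ p = c • pm IS (𝓡 1) Prod.snd oC p)
    (hβ : 0 < rat o (β * τ) (f p)) : 0 < rat oR (pm (𝓡 2) (𝓡 3) (fun x => f (x, p.2)) β) p.1 := by
  obtain ⟨c, c0, e⟩ := hτ
  borelize Circle
  have k := Int54.rat_mul_snd (I := 𝓡 2) (J := 𝓡 1) (o := oR) (o' := oC) (b := oC) (fun y l =>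
    Sym24.eq_zero_of_deg ((Orx52.dg_oC (s := univ) y trivial).io_mul l) (by simp))
    (pm IS (𝓡 3) f β) p.1 p.2
  have k1 := (pos_ld hf (h p trivial) _).1 hβ
  rw [rat, pm_mul, Pi.mul_apply, e, mul_smul_comm, map_smul, smul_eq_mul, mul_div_assoc] at k1
  have k2 := ((pos_iff_pos_of_mul_pos k1).1 c0).trans_eq k
  rw [Int54.rat_self (Orx52.ori_oC.ne _), mul_one] at k2
  rwa [rat, Int54.sl, pm_comp (f := fun x : R => (x, p.2)) (hf.mdifferentiableAt ne0)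
    (mdifferentiableAt_id.prodMk mdifferentiableAt_const)] at k2

theorem pm_g_symm {X : Type} [TopologicalSpace X] [ChartedSpace (EE 4) X] [IsManifold (𝓡 4) ∞ X]
    (g : (R × ℂ) ≃ₘ^∞⟮IC, 𝓡 4⟯ X) (a : Fc R) : pm IC (𝓡 4) g (pm (𝓡 4) IC g.symm a) = a :=
  funext fun p => Orx52.pm_pm_inv (g.isLocalDiffeomorph p) (Eventually.of_forall g.symm_apply_apply) a

theorem base0 (C : End Y) (f : (R × Circle) ≃ₘ^∞⟮IS, 𝓡 3⟯ Y) (g : (R × ℂ) ≃ₘ^∞⟮IC, 𝓡 4⟯ C.X) (c : ℝ)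
    (eq : ∀ x (θ : Circle) (t : ℝ), C.j (f (x, θ), t) = g (x, Real.exp (t + c) * θ))
    {o β τ : Fm 3 Y} {oR : Fm 2 R} (hR : Ori (𝓡 2) oR)
    (h : SameOn (pm IS (𝓡 3) f o) (pr oR oC) univ)
    (hτ : ∀ p, ∃ c > (0 : ℝ), pm IS (𝓡 3) f τ p = c • pm IS (𝓡 1) Prod.snd oC p) :
    UC0 C (pm (𝓡 4) IC g.symm (oP oR)) (AA o β univ τ) {0} := by
  intro ι _ ζ a hζ ha he
  have gl := g.isLocalDiffeomorph
  have gi := pm_g_symm g
  have gm : Mp (𝓡 4) IC univ univ g.symm := .of_contMDiff g.symm.contMDiff (mapsTo_univ _ _)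
  have nj : ∀ (y : Y) (t : ℝ), ‖(g.symm (C.j (y, t))).2‖ = Real.exp (t + c) := fun y t => by
    obtain ⟨⟨x, θ⟩, rfl⟩ := EquivLike.surjective f y
    rw [eq, g.symm_apply_apply, norm_mul, Circle.norm_coe, mul_one, Complex.norm_real,
      Real.norm_of_nonneg (Real.exp_pos _).le]
  obtain ⟨v, la, r, v1, r0, r1, v2, l1, l2, l3⟩ := exists_gd hR (Real.exp_pos c)
    (c := fun q => pm IC (𝓡 4) g (ζ q))
    (fun q => (hζ q).pm (.of_contMDiff g.contMDiff (mapsTo_univ _ _))) fun q => by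
      obtain ⟨ε, e0, e⟩ := he q
      refine ⟨Real.exp (c - ε), Real.exp_lt_exp.2 (by linarith), fun z hz x => ?_⟩
      have z0 : 0 < ‖z‖ := (Real.exp_pos _).trans hz
      have m : ContMDiff (𝓡 2) (IR 3) ∞ fun x : R => (f (x, Glue52.dir z), Real.log ‖z‖ - c) :=
        (f.contMDiff.comp (contMDiff_id.prodMk contMDiff_const)).prodMk contMDiff_const
      have k : (fun x : R => g (x, z)) =
          C.j ∘ fun x : R => (f (x, Glue52.dir z), Real.log ‖z‖ - c) := funext fun x => by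
        simp only [comp, sub_add_cancel, eq, Real.exp_log z0, Glue52.norm_mul_dir]
      have k1 := fib_pos (f.isLocalDiffeomorph (x, Glue52.dir z)) h (hτ _) ((ha q).2.2 _ trivial)
      rw [rat, sz_pm ((gl _).mdifferentiableAt ne0), k, ← pm_comp
        (C.oe.contMDiff.mdifferentiable ne0 _) (m.mdifferentiable ne0 x),
        pm_congr_right (b := pu (a q)) (e _ (by
          have := (Real.lt_log_iff_exp_lt z0).2 hz
          show -ε < Real.log ‖z‖ - c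
          linarith)), ← Sym24.pm_fst (I := 𝓡 3),
        pm_comp mdifferentiableAt_fst (m.mdifferentiable ne0 x)]
      exact k1
  refine ⟨0, rfl, pm (𝓡 4) IC g.symm v, v1.pm gm, ⟨c - Real.log r, sub_pos.2
    ((Real.log_lt_iff_lt_exp r0).2 r1), fun p hp => ?_⟩, fun q => pm (𝓡 4) IC g.symm (la q),
    fun q => ⟨(l1 q).1.pm gm, (l1 q).2.pm (mapsTo_univ _ _)⟩, fun q => funext fun y => ?_,
    fun q q' x hx => ?_⟩
  · rw [pm_apply, pm_apply, v2 _ (by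
      rw [nj p.1 p.2]
      exact (Real.log_le_iff_le_exp r0).1 (by linarith))]
    simp [pu]
  · simp only [sl, pm_apply, l2 q _ ((nj y 0).trans (by rw [zero_add])), map_zero, Pi.zero_apply]
  · obtain ⟨p, rfl⟩ := EquivLike.surjective g x
    have k : ∀ q, pm IC (𝓡 4) g (ζ q + pm (𝓡 4) IC g.symm v -
        dM (𝓡 4) (pm (𝓡 4) IC g.symm (la q))) p =
        (pm IC (𝓡 4) g (ζ q) + v - dM IC (la q)) p := fun q => by
      rw [pm_sub, pm_add, gi, Pi.sub_apply, Pi.sub_apply, ← dM_pm ne0 (g.contMDiff p)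
        ((l1 q).1.pm gm _ trivial), gi]
    refine lt_of_lt_of_eq (l3 q q' p (not_lt.1 fun hp => hx ?_)) ?_
    · have z0 : 0 < ‖p.2‖ := (Real.exp_pos _).trans hp
      refine ⟨(f (p.1, Glue52.dir p.2), Real.log ‖p.2‖ - c),
        ⟨trivial, sub_pos.2 ((Real.lt_log_iff_exp_lt z0).2 hp)⟩, ?_⟩
      simp only [sub_add_cancel, eq, Real.exp_log z0, Glue52.norm_mul_dir]
    · refine Eq.trans ?_ (rat_ld (gl p) _ _)
      rw [gi, pm_mul, rat, rat, Pi.mul_apply, Pi.mul_apply, k, k]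

theorem base' {C : End Y} (B : Bs R C) {o β τ : Fm 3 Y} {oR : Fm 2 R} (hR : Ori (𝓡 2) oR)
    (hd : Dg 2 univ oR) (h : SameOn (pm IS (𝓡 3) B.f o) (pr oR oC) univ)
    (hτ : ∀ p, ∃ c > (0 : ℝ), pm IS (𝓡 3) B.f τ p = c • pm IS (𝓡 1) Prod.snd oC p) :
    OC C o (AA o β univ τ) := by
  have ej : C.j ∘ Prod.map B.f id = B.g ∘ pl := funext fun p => B.eq p.1.1 p.1.2 p.2
  refine ⟨pm (𝓡 4) IC B.g.symm (oP oR), Orx52.ori_pm (Orx52.ori_pr hR Orx52.ori_oZ)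
    B.g.symm.isLocalDiffeomorph, ?_, fun c =>
    base0 (sh C c) B.f B.g c (fun x θ t => B.eq x θ (t + c)) hR h hτ⟩
  have k := Orx52.Pos.cy (t := univ) h (fun y _ => B.f.isLocalDiffeomorph y)
    (fun x _ => hasDerivAt_id x) fun _ _ => one_pos
  rw [univ_prod_univ] at k
  have k1 : Orx52.Pos (IS.prod 𝓘(ℝ, ℝ)) (𝓡 4) (C.j ∘ Prod.map B.f id) univ (cy (pr oR oC))
      (pm (𝓡 4) IC B.g.symm (oP oR)) := fun p _ => by
    rw [ej, ← pm_comp ((B.g.isLocalDiffeomorph _).mdifferentiableAt ne0)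
      (sm_pl.mdifferentiable ne0 p), pm_g_symm]
    exact pos_pl hR hd p trivial
  have k2 := k1.of_comp k (fun y _ => C.oe.loc _)
    fun y _ => ld_prodMap (B.f.isLocalDiffeomorph _) (ld_id _)
  rwa [image_univ_of_surjective ((EquivLike.surjective B.f).prodMap surjective_id)] at k2

/-- **`BASE*`** -/
theorem base : BaseStmt := by
  intro Y R C B o β τ oR _ hR h hτ
  have e : ∀ x, tp (EE 2) (dp 2 oR x) = tp (EE 2) (oR x) := fun x => by
    simpa using Orx52.tp_dp oR x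
  refine base' B (oR := dp 2 oR) ⟨fun x => (hR.sm x).dp 2, fun x => (e x).trans_ne (hR.ne x)⟩
    (fun x _ => T.isDeg_dpl _ _) (fun p _ => ?_) hτ
  rw [Orx52.tp_pr, e, ← Orx52.tp_pr]
  exact h p trivial

end Crest.Agent.X212.Hel3
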