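import Crest.Agent.X212.Hel40.Stp
import Crest.Agent.X212.Hl33.Trans

/-!
# X212/Hel3/Idle (helper3): IDLE, the stage which does not cut
-/

set_option autoImplicit false
set_option linter.unusedSectionVars false

open Set Filter Topology Function Real
open scoped ContDiff Manifold
open Crest.Agent.X212.Sep15 (EE CM)
open Crest.Agent.X212.Bb31 (Fm)
open Crest.Agent.X212.Flo26 (SmV fl)
open Crest.Agent.X212.Hel40
open Crest.Agent.X212.Hl33 (pre_sub pre_cpt pre_small slabStmt)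

noncomputable section

namespace Crest.Agent.X212.Hel3.Idl

/-- a locally constant function on the part of a connected set inside a compact frontier -/
theorem fin_cls {X Z : Type*} [TopologicalSpace X] {P B N : Set X} (c : X → Z)
    (hP : IsPreconnected P) (hB : IsClosed B) (hN : IsOpen N) (hNB : N ⊆ B)
    (hK : IsCompact ((P ∩ B) \ N)) (hc : ∀ x ∈ P ∩ B, ∀ᶠ x' in 𝓝 x, c x' = c x) :
    (c '' (P ∩ B)).Finite := by
  have h1 : (c '' ((P ∩ B) \ N)).Finite :=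
    hK.induction_on (p := fun s => (c '' s).Finite) (by simp)
      (fun s t hst h => h.subset (image_mono hst))
      (fun s t hs ht => by rw [image_union]; exact hs.union ht) fun x hx =>
        ⟨{x' | c x' = c x}, mem_nhdsWithin_of_mem_nhds (hc x hx.1),
          (finite_singleton (c x)).subset (by rintro _ ⟨y, hy, rfl⟩; exact hy)⟩
  rcases (P ∩ B).eq_empty_or_nonempty with h | ⟨x₀, h₀⟩
  · simp [h]
  have h2 : ∀ x ∈ P ∩ B, ∀ F : Set Z, c x ∈ F → x ∈ interior (c ⁻¹' F) := fun x hx F h =>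
    mem_interior_iff_mem_nhds.2 ((hc x hx).mono fun y (e : c y = c x) => show c y ∈ F from e ▸ h)
  have h3 := hP.subset_left_of_subset_union
    (u := Bᶜ ∪ interior (c ⁻¹' insert (c x₀) (c '' ((P ∩ B) \ N))))
    (v := N ∩ interior (c ⁻¹' (insert (c x₀) (c '' ((P ∩ B) \ N)))ᶜ))
    (hB.isOpen_compl.union isOpen_interior) (hN.inter isOpen_interior)
    (disjoint_left.2 fun x a b => a.elim (fun a => a (hNB b.1)) fun a =>
      have e := interior_subset a; interior_subset b.2 e)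
    (fun x hx => by
      by_cases a : x ∈ B
      · by_cases b : c x ∈ insert (c x₀) (c '' ((P ∩ B) \ N))
        · exact .inl (.inr (h2 x ⟨hx, a⟩ _ b))
        · exact .inr ⟨by_contra fun e => b (.inr ⟨x, ⟨⟨hx, a⟩, e⟩, rfl⟩), h2 x ⟨hx, a⟩ _ b⟩
      · exact .inl (.inl a))
    ⟨x₀, h₀.1, .inr (h2 x₀ h₀ _ (.inl rfl))⟩
  refine (h1.insert (c x₀)).subset ?_
  rintro _ ⟨x, hx, rfl⟩
  have e := interior_subset ((h3 hx.1).resolve_left fun e => e hx.2)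
  exact e

theorem seg_sg {σ s : ℝ} (hσ : σ = 1 ∨ σ = -1) (hs : 0 ≤ s) {p : ℝ → Prop}
    (h : ∀ t ∈ Icc 0 s, p (σ * t)) : ∀ t ∈ uIcc 0 (σ * s), p t := fun t ht => by
  rcases hσ with rfl | rfl
  · rw [one_mul, uIcc_of_le hs] at ht
    simpa using h t ht
  · rw [uIcc_of_ge (by linarith)] at ht
    simpa using h (-t) ⟨by linarith [ht.2], by linarith [ht.1]⟩

variable {Y : CM 3} {o : Fm 3 Y} {v : Vf Y} {Φ : Y → Circle} {M M' O B N T : Set Y} {σ : ℝ}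
  {g g' : Y → ℝ} {x y z z' : Y}

/-- the two colours seen in the direction `σ` -/
structure Sd (v : Vf Y) (M O : Set Y) (σ : ℝ) (g g' : Y → ℝ) : Prop where
  hσ : σ = 1 ∨ σ = -1
  cg : ContinuousOn g O
  cg' : ContinuousOn g' O
  nn : ∀ y ∈ O, 0 ≤ g y
  nn' : ∀ y ∈ O, 0 ≤ g' y
  meq : ∀ y ∈ O, y ∈ M ↔ g y = 0 ∧ g' y = 0
  mono : ∀ y s, 0 ≤ s → (∀ t ∈ Icc 0 s, fl v (σ * t) y ∈ O) →
    g y ≤ g (fl v (σ * s) y) ∧ g' (fl v (σ * s) y) ≤ g' y

theorem mono_seg (S : Pre v M M') (hv : SmV (𝓡 3) v) {a b : ℝ} (hab : a ≤ b)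
    (h : ∀ t ∈ Icc a b, fl v t y ∈ S.O) :
    S.tp (fl v a y) ≤ S.tp (fl v b y) ∧ S.tm (fl v a y) ≤ S.tm (fl v b y) :=
  ⟨le_of_dr hv hab fun t ht => ⟨(S.sp.contMDiffAt (S.op.mem_nhds (h t ht))).mdifferentiableAt
      (by simp), S.pv _ (h t ht)⟩,
    le_of_dr hv hab fun t ht => ⟨(S.sm.contMDiffAt (S.op.mem_nhds (h t ht))).mdifferentiableAt
      (by simp), S.mv _ (h t ht)⟩⟩

theorem sd₁ (S : Pre v M M') (hv : SmV (𝓡 3) v) : Sd v M S.O 1 S.tp fun y => -S.tm y where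
  hσ := .inl rfl
  cg := S.sp.continuousOn
  cg' := S.sm.continuousOn.neg
  nn := S.p0
  nn' := fun y hy => neg_nonneg.2 (S.m0 y hy)
  meq := fun y hy => by simp [S.meq y, hy]
  mono := fun y s hs h => by
    have := mono_seg S hv (y := y) hs (by simpa using h)
    rw [Flo26.fl_zero hv] at this
    simpa using this

theorem sd₂ (S : Pre v M M') (hv : SmV (𝓡 3) v) : Sd v M S.O (-1) (fun y => -S.tm y) S.tp where
  hσ := .inr rfl
  cg := S.sm.continuousOn.neg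
  cg' := S.sp.continuousOn
  nn := fun y hy => neg_nonneg.2 (S.m0 y hy)
  nn' := S.p0
  meq := fun y hy => by simp [S.meq y, hy, and_comm]
  mono := fun y s hs h => by
    have := mono_seg S hv (y := y) (neg_nonpos.2 hs) fun t ht => by
      simpa using h (-t) ⟨by linarith [ht.2], by linarith [ht.1]⟩
    rw [Flo26.fl_zero hv] at this
    simpa using this.symm

/-- the orbit of a point of the middle surface with one colour gets the other colour -/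
theorem Sd.exit (hB : Bas o v Φ M) (D : Sd v M O σ g g') (hO : IsOpen O) (hc : IsClosed B)
    (hBO : B ⊆ O) (hN : IsOpen N) (hNO : N ⊆ O) (hΦ : ∀ y ∈ B, (Φ y : ℂ) ≠ -1) (hx : x ∈ PP Φ M)
    (hxO : x ∈ O) (h0 : g x = 0) (h1 : ∀ y ∈ O, g y = 0 → g' y ≤ g' x → y ∈ B ∧ y ∈ N) :
    ∃ t, (∀ s ∈ uIcc 0 t, fl v s x ∈ N) ∧ 0 < g (fl v t x) ∧ 0 < g' (fl v t x) := by
  have hv := hB.smv
  have hx0 : Φ x = Circle.exp 0 := by rw [hx.1, Circle.exp_zero]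
  have ct : Continuous fun s => fl v (σ * s) x :=
    fl_cont' hv (continuous_const.mul continuous_id) continuous_const
  by_contra hn
  push Not at hn
  obtain ⟨s₁, hs₁, e⟩ := hB.reach' D.hσ (c := π) (s₀ := 1) hx0 (by simpa using pi_pos.le)
    (by linarith [pi_pos]) zero_le_one (by rw [zero_add]; exact hB.strict D.hσ hx.2 one_pos)
  have hC := ((D.cg.prodMk D.cg').mono hBO).preimage_isClosed_of_isClosed hc
    ((isClosed_singleton (x := (0 : ℝ))).prod (isClosed_Iic (a := g' x)))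
  have key := ((hC.preimage ct).inter
    (isClosed_Icc (a := 0) (b := s₁))).Icc_subset_of_forall_mem_nhdsGT_of_Icc_subset
    (by
      simp only [mem_preimage, mul_zero, Flo26.fl_zero hv]
      exact ⟨(h1 x hxO h0 le_rfl).1, h0, le_refl (g' x)⟩) fun t ht hs => by
    have k0 := hs (right_mem_Icc.2 ht.1)
    have k1 : 0 < g' (fl v (σ * t) x) := (D.nn' _ (hBO k0.1)).lt_of_ne' fun a => by
      have a1 := (D.meq _ (hBO k0.1)).2 ⟨k0.2.1, a⟩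
      rcases ht.1.eq_or_lt with b | b
      · exact hx.2 (by simpa [← b, Flo26.fl_zero hv] using a1)
      have a2 := abs_ag_lt hv hB.smΦ hx0 (by simpa using pi_pos)
        (seg_sg D.hσ ht.1 (p := fun s => (Φ (fl v s x) : ℂ) ≠ -1) fun s h => hΦ _ (hs h).1)
      have a3 := hB.strict D.hσ hx.2 b
      refine exp_ne_one (a := 0 + ag Φ v x (σ * t)) (fun c => ?_) (by linarith [pi_pos])
        ((phi_fl' hv hB.smΦ hx0 _).symm.trans (hB.one _ a1))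
      rw [zero_add] at c
      simp [c] at a3
    have k2 : {s | fl v (σ * s) x ∈ N ∧ 0 < g' (fl v (σ * s) x)} ∈ 𝓝 t :=
      (ct.continuousAt.eventually (hN.mem_nhds (h1 _ (hBO k0.1) k0.2.1 k0.2.2).2)).and
        (((D.cg'.continuousAt (hO.mem_nhds (hBO k0.1))).comp (f := fun s => fl v (σ * s) x)
          ct.continuousAt).eventually (lt_mem_nhds k1))
    obtain ⟨l, u, k3, k4⟩ := mem_nhds_iff_exists_Ioo_subset.1 k2
    filter_upwards [Ioo_mem_nhdsGT k3.2] with w hw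
    have k5 : ∀ s ∈ Icc 0 w, fl v (σ * s) x ∈ N := fun s h => (le_or_gt s t).elim
      (fun a => have b := hs ⟨h.1, a⟩; (h1 _ (hBO b.1) b.2.1 b.2.2).2)
      fun a => (k4 ⟨k3.1.trans a, h.2.trans_lt hw.2⟩).1
    have k6 : 0 ≤ w := ht.1.trans hw.1.le
    have k7 := hNO (k5 w (right_mem_Icc.2 k6))
    have k8 : g (fl v (σ * w) x) = 0 := le_antisymm (not_lt.1 fun a =>
      (hn _ (seg_sg D.hσ k6 (p := fun s => fl v s x ∈ N) k5) a).not_gt
        (k4 ⟨k3.1.trans hw.1, hw.2⟩).2) (D.nn _ k7)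
    have k9 := (D.mono x w k6 fun s h => hNO (k5 s h)).2
    exact ⟨(h1 _ k7 k8 k9).1, k8, k9⟩
  refine hΦ _ (key (right_mem_Icc.2 hs₁)).1 ?_
  rw [phi_fl' hv hB.smΦ hx0]
  rcases D.hσ with rfl | rfl
  · rw [one_mul] at e
    rw [e, coe_exp_pi]
  · rw [← Circle.exp_add_two_pi, show 0 + ag Φ v x (-1 * s₁) + 2 * π = π by linarith, coe_exp_pi]

/-- a coloured point near the plateau flows to the middle surface -/
theorem Sd.hit (hB : Bas o v Φ M) (D : Sd v M O σ g g') (hc : IsCompact B) (hBO : B ⊆ O) {a : ℝ}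
    (ha : Φ y = Circle.exp a) (h0 : σ * a ≤ 0) (ha' : |a| ≤ π) (hy : 0 < g y)
    (hs : ∀ t, (∀ s ∈ uIcc 0 t, cos a ≤ (Φ (fl v s y) : ℂ).re) → fl v t y ∈ B) :
    ∃ t, fl v t y ∈ PP Φ M ∧ ∀ s ∈ uIcc 0 t, fl v s y ∈ B := by
  have hv := hB.smv
  have h1 : ∀ s, σ * (a + ag Φ v y (σ * s)) ≤ 0 → ∀ t ∈ Icc 0 s, fl v (σ * t) y ∈ B :=
    fun s h t ht => hs _ (seg_sg D.hσ ht.1 (p := fun u => cos a ≤ (Φ (fl v u y) : ℂ).re)
      fun u hu => by
        have m1 := hB.mono D.hσ y hu.1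
        have m2 := hB.mono D.hσ y (hu.2.trans ht.2)
        simp only [mul_zero, ag_zero] at m1 m2
        rw [phi_fl' hv hB.smΦ ha, re_exp, ← cos_abs a, ← cos_abs (a + _)]
        refine cos_le_cos_of_nonneg_of_le_pi (abs_nonneg _) ha' (abs_le.2 ?_)
        rcases D.hσ with rfl | rfl <;> constructor <;>
          linarith [le_abs_self a, neg_abs_le a, abs_nonneg a])
  have h2 : ∀ s, 0 ≤ s → σ * (a + ag Φ v y (σ * s)) ≤ 0 → g y ≤ g (fl v (σ * s) y) :=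
    fun s h h' => (D.mono y s h fun t ht => hBO (h1 s h' t ht)).1
  have h3 : ∀ z ∈ B, g y ≤ g z → z ∉ M := fun z a b c =>
    (hy.trans_le b).ne' ((D.meq z (hBO a)).1 c).1
  obtain ⟨s, h4, h5⟩ : ∃ s ≥ 0, -(σ * a) ≤ σ * ag Φ v y (σ * s) := by
    by_contra hn
    refine hn (grow D.hσ hv hB.smΦ (A := B ∩ g ⁻¹' Ici (g y))
      ((D.cg.mono hBO).preimage_isClosed_of_isClosed hc.isClosed isClosed_Ici).isCompact
      (fun z h => hB.pos z (h3 z h.1 h.2)) (fun s h => ?_) _)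
    have k : σ * (a + ag Φ v y (σ * s)) ≤ 0 := by
      have := not_le.1 fun e => hn ⟨s, h, e⟩
      linarith
    exact ⟨h1 s k s (right_mem_Icc.2 h), h2 s h k⟩
  obtain ⟨t, ht, e⟩ := intermediate_value_Icc h4 (f := fun s => σ * (a + ag Φ v y (σ * s)))
    (continuous_const.mul (continuous_const.add ((continuous_ag' hv hB.smΦ y).comp
      (continuous_const.mul continuous_id)))).continuousOn
    (⟨by simpa [ag_zero] using h0, by linarith⟩ : (0 : ℝ) ∈ Icc _ _)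
  refine ⟨σ * t, ⟨?_, h3 _ (h1 t e.le t (right_mem_Icc.2 ht.1)) (h2 t ht.1 e.le)⟩,
    seg_sg D.hσ ht.1 (p := fun u => fl v u y ∈ B) (h1 t e.le)⟩
  rw [phi_fl' hv hB.smΦ ha, (mul_eq_zero.1 e).resolve_left (by rcases D.hσ with h | h <;> simp [h]),
    Circle.exp_zero]

/-- `z` is a point of `T` on the orbit segment of `x` in `N` -/
def Rl (v : Vf Y) (N T : Set Y) (x z : Y) : Prop :=
  z ∈ T ∧ ∃ t, z = fl v t x ∧ ∀ s ∈ uIcc 0 t, fl v s x ∈ N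

theorem Rl.loc (hv : SmV (𝓡 3) v) (hN : IsOpen N) (hT : IsOpen T) (h : Rl v N T x z) :
    ∀ᶠ x' in 𝓝 x, ∃ z', Rl v N T x' z' ∧ JoinedIn T z z' := by
  have := ChartedSpace.locallyPathConnectedSpace (EE 3) Y
  obtain ⟨hz, t, rfl, ht⟩ := h
  filter_upwards [isCompact_uIcc.eventually_forall_of_forall_eventually
    (P := fun x' s => fl v s x' ∈ N) fun s hs =>
      (hN.preimage (fl_cont' hv continuous_snd continuous_fst)).mem_nhds (ht s hs),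
    (fl_cont' hv continuous_const continuous_id).continuousAt.eventually
      ((hT.pathComponentIn _).mem_nhds (mem_pathComponentIn_self hz))] with x' h1 h2
  exact ⟨_, ⟨h2.target_mem, t, rfl, h1⟩, h2⟩

theorem Rl.uniq (S : Pre v M M') (hv : SmV (𝓡 3) v) (hN : N ⊆ S.O)
    (hT : ∀ y, y ∈ T ↔ y ∈ N ∧ 0 < S.tp y ∧ S.tm y < 0) (h : Rl v N T x z) (h' : Rl v N T x z') :
    JoinedIn T z z' := by
  obtain ⟨hz, t, rfl, ht⟩ := h
  obtain ⟨hz', t', rfl, ht'⟩ := h'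
  wlog a : t ≤ t' generalizing t t'
  · exact (this t' ht' hz' t ht hz (not_le.1 a).le).symm
  have k : ∀ s ∈ Icc t t', fl v s x ∈ N := fun s hs =>
    (uIcc_subset_uIcc_union_uIcc (b := 0) (Icc_subset_uIcc hs)).elim
      (fun b => ht s (uIcc_comm 0 t ▸ b)) (ht' s)
  refine ((((convex_Icc t t').isPathConnected ⟨t, left_mem_Icc.2 a⟩).joinedIn t (left_mem_Icc.2 a)
    t' (right_mem_Icc.2 a)).map (fl_cont' hv continuous_id continuous_const)).mono ?_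
  rintro _ ⟨s, hs, rfl⟩
  exact (hT _).2 ⟨k s hs, ((hT _).1 hz).2.1.trans_le
    (mono_seg S hv hs.1 fun u hu => hN (k u ⟨hu.1, hu.2.trans hs.2⟩)).1,
    (mono_seg S hv hs.2 fun u hu => hN (k u ⟨hs.1.trans hu.1, hu.2⟩)).2.trans_lt ((hT _).1 hz').2.2⟩

/-- the open neighbourhoods of the plateau -/
def Nb (S : Pre v M M') (ρ : ℝ) : Set Y := S.O ∩ (fun y => (S.tp y, S.tm y)) ⁻¹' Iio ρ ×ˢ Ioi (-ρ)

theorem open_Nb (S : Pre v M M') (ρ : ℝ) : IsOpen (Nb S ρ) :=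
  (S.sp.continuousOn.prodMk S.sm.continuousOn).isOpen_inter_preimage S.op
    (isOpen_Iio.prod isOpen_Ioi)

theorem Nb_sub (S : Pre v M M') (ρ : ℝ) : Nb S ρ ⊆ S.B ρ := fun _ h =>
  ⟨h.1, le_of_lt h.2.1, le_of_lt h.2.2⟩

theorem sub_Nb (S : Pre v M M') {ρ ρ' : ℝ} (h : ρ < ρ') : S.B ρ ⊆ Nb S ρ' := fun _ a =>
  ⟨a.1, a.2.1.trans_lt h, (neg_lt_neg h).trans_le a.2.2⟩

theorem Nb_mem (S : Pre v M M') {ρ : ℝ} (h : 0 < ρ) : Nb S ρ ∈ 𝓝ˢ M :=
  (open_Nb S ρ).mem_nhdsSet.2 fun y hy => sub_Nb S h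
    (have a := (S.meq y).1 hy; ⟨a.1, a.2.1.le, by simp [a.2.2]⟩)

/-- the sheet `0`: two-coloured points near the plateau are joined to finitely many points -/
theorem zero (S : Pre v M M') (hB : Bas o v Φ M) (hP : IsPreconnected (PP Φ M)) {W : Set Y}
    (hW : W ∈ 𝓝ˢ M) : ∃ W' ∈ 𝓝ˢ M, ∃ Q : Set Y, Q.Finite ∧
      Q ⊆ {y | y ∈ S.O ∧ y ∈ W ∧ 0 < S.tp y ∧ S.tm y < 0} ∧ ∀ y ∈ W', 0 < S.tp y → S.tm y < 0 →
        ∃ q ∈ Q, JoinedIn {y | y ∈ S.O ∧ y ∈ W ∧ 0 < S.tp y ∧ S.tm y < 0} y q := by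
  have hv := hB.smv
  have cΦ : Continuous fun y => (Φ y : ℂ) := Line51.contMDiff_coe.continuous.comp hB.smΦ.continuous
  obtain ⟨ρ, h0, h1, h2⟩ := pre_small S (W := interior W ∩ {y | (Φ y : ℂ) ≠ -1})
    (isOpen_interior.inter (isOpen_ne_fun cΦ continuous_const)) fun y hy =>
      ⟨subset_interior_iff_mem_nhdsSet.2 hW hy, by
        rw [mem_ofPred_eq, hB.one y hy]; norm_num⟩
  obtain ⟨T, hT⟩ : ∃ T : Set Y, ∀ y, y ∈ T ↔ y ∈ Nb S ρ ∧ 0 < S.tp y ∧ S.tm y < 0 :=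
    ⟨_, fun _ => Iff.rfl⟩
  have hTo : IsOpen T := by
    convert ((S.sp.continuousOn.prodMk S.sm.continuousOn).mono fun _ h => h.1).isOpen_inter_preimage
      (open_Nb S ρ) ((isOpen_Ioi (a := 0)).prod (isOpen_Iio (a := 0))) using 1
    exact Set.ext hT
  have hTW : T ⊆ {y | y ∈ S.O ∧ y ∈ W ∧ 0 < S.tp y ∧ S.tm y < 0} := fun y hy =>
    have a := (hT y).1 hy
    ⟨a.1.1, interior_subset (h2 (Nb_sub S ρ a.1)).1, a.2⟩
  have hU := fun {x z z'} => Rl.uniq (x := x) (z := z) (z' := z') S hv (fun _ h => h.1) hT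
  have hE : ∀ x ∈ PP Φ M ∩ S.B (ρ / 2), ∃ z, Rl v (Nb S ρ) T x z := fun x hx => by
    have a := sub_Nb S (half_lt_self h0) hx.2
    have b : S.tp x < ρ := a.2.1
    have c : -ρ < S.tm x := a.2.2
    have k := fun y h => (⟨Nb_sub S ρ h, h⟩ : y ∈ S.B ρ ∧ y ∈ Nb S ρ)
    rcases (S.p0 x a.1).eq_or_lt with d | d
    · obtain ⟨t, e, f⟩ := (sd₁ S hv).exit hB S.op (pre_cpt S h1).isClosed (fun _ h => h.1)
        (open_Nb S ρ) (fun _ h => h.1) (fun y h => (h2 h).2) hx.1 a.1 d.symm fun y h i j =>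
          k y ⟨h, i.trans_lt h0, show -ρ < S.tm y by linarith⟩
      exact ⟨_, (hT _).2 ⟨e t right_mem_uIcc, f.1, neg_pos.1 f.2⟩, t, rfl, e⟩
    rcases (S.m0 x a.1).eq_or_lt with d' | d'
    · obtain ⟨t, e, f⟩ := (sd₂ S hv).exit hB S.op (pre_cpt S h1).isClosed (fun _ h => h.1)
        (open_Nb S ρ) (fun _ h => h.1) (fun y h => (h2 h).2) hx.1 a.1 (neg_eq_zero.2 d')
        fun y h i j => k y ⟨h, j.trans_lt b, show -ρ < S.tm y by linarith⟩
      exact ⟨_, (hT _).2 ⟨e t right_mem_uIcc, f.2, neg_pos.1 f.1⟩, t, rfl, e⟩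
    · exact ⟨x, (hT _).2 ⟨a, d, d'⟩, 0, (Flo26.fl_zero hv x).symm, fun s hs => by
        rw [uIcc_self, mem_singleton_iff] at hs
        rwa [hs, Flo26.fl_zero hv]⟩
  have hc : ∀ {x z}, Rl v (Nb S ρ) T x z →
      {q | ∃ z, Rl v (Nb S ρ) T x z ∧ JoinedIn T z q} = pathComponentIn T z := fun h =>
    Set.ext fun q => ⟨fun ⟨_, a, b⟩ => (hU h a).trans b, fun a => ⟨_, h, a⟩⟩
  have c2 := pre_cpt S ((half_le_self h0.le).trans h1)
  have hF := fin_cls (fun x => {q | ∃ z, Rl v (Nb S ρ) T x z ∧ JoinedIn T z q}) hP c2.isClosed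
    (open_Nb S (ρ / 2)) (Nb_sub S _) (by
      convert (c2.inter_left (isClosed_eq hB.smΦ.continuous (continuous_const (y := 1)))).diff
        (open_Nb S (ρ / 2)) using 1
      ext y
      exact ⟨fun h => ⟨⟨h.1.1.1, h.1.2⟩, h.2⟩, fun h => ⟨⟨⟨h.1.1, fun m =>
        h.2 (subset_of_mem_nhdsSet (Nb_mem S (half_pos h0)) m)⟩, h.1.2⟩, h.2⟩⟩) fun x hx => by
      obtain ⟨z, hz⟩ := hE x hx
      filter_upwards [hz.loc hv (open_Nb S ρ) hTo] with x' ⟨z', a, b⟩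
      rw [hc a, hc hz]
      exact pathComponentIn_congr b
  obtain ⟨Q, hQ, hQ1, hQ2⟩ : ∃ Q : Set Y, Q.Finite ∧ Q ⊆ T ∧ ∀ x ∈ PP Φ M ∩ S.B (ρ / 2), ∃ q ∈ Q,
      ∃ z, Rl v (Nb S ρ) T x z ∧ JoinedIn T z q := by
    have k : ∀ A ∈ (fun x => {q | ∃ z, Rl v (Nb S ρ) T x z ∧ JoinedIn T z q}) ''
        (PP Φ M ∩ S.B (ρ / 2)), ∃ q ∈ A, q ∈ T := by
      rintro _ ⟨x, hx, rfl⟩
      obtain ⟨z, hz⟩ := hE x hx
      exact ⟨z, ⟨z, hz, .refl hz.1⟩, hz.1⟩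
    choose q a b using k
    have := hF.to_subtype
    exact ⟨range fun A : _ '' (PP Φ M ∩ S.B (ρ / 2)) => q A.1 A.2, finite_range _,
      range_subset_iff.2 fun A => b _ _, fun x hx => ⟨_, ⟨⟨_, x, hx, rfl⟩, rfl⟩, a _ ⟨x, hx, rfl⟩⟩⟩
  have c4 := pre_cpt S (ρ := ρ / 4) (by linarith)
  obtain ⟨η, hη, hs⟩ := slabStmt Y o v Φ M hB _ (Nb_mem S (half_pos h0)) (S.B (ρ / 4))
    (mem_of_superset (Nb_mem S (by positivity)) (Nb_sub S _))
    (by rw [c4.isClosed.closure_eq, (open_Nb S _).interior_eq]; exact sub_Nb S (by linarith))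
  refine ⟨S.B (ρ / 4) ∩ {y | 1 - η < (Φ y : ℂ).re}, inter_mem
    (mem_of_superset (Nb_mem S (by positivity)) (Nb_sub S _))
    ((isOpen_lt continuous_const (Complex.continuous_re.comp cΦ)).mem_nhdsSet.2 fun y hy => by
      simpa [hB.one y hy] using hη), Q, hQ, hQ1.trans hTW, fun y hy a b => ?_⟩
  have k : ∀ t, (∀ s ∈ uIcc 0 t, cos (ar (Φ y)) ≤ (Φ (fl v s y) : ℂ).re) →
      fl v t y ∈ S.B (ρ / 2) := fun t h => Nb_sub S _ (hs y hy.1 t fun s i =>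
    (le_of_lt hy.2).trans (by rw [← exp_ar (Φ y), re_exp]; exact h s i))
  obtain ⟨t, e, f⟩ : ∃ t, fl v t y ∈ PP Φ M ∧ ∀ s ∈ uIcc 0 t, fl v s y ∈ S.B (ρ / 2) :=
    (le_total (ar (Φ y)) 0).elim
      (fun i => (sd₁ S hv).hit hB c2 (fun _ h => h.1) (exp_ar _).symm (by linarith) (abs_ar_le _) a k)
      fun i => (sd₂ S hv).hit hB c2 (fun _ h => h.1) (exp_ar _).symm (by linarith) (abs_ar_le _)
        (neg_pos.2 b) k
  obtain ⟨q, i, z, j, l⟩ := hQ2 _ ⟨e, f t right_mem_uIcc⟩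
  refine ⟨q, i, ((hU ⟨(hT y).2 ⟨sub_Nb S (by linarith) hy.1, a, b⟩, -t, (fl_neg hv y t).symm,
    fun s m => ?_⟩ j).trans l).mono hTW⟩
  rw [← fl_add hv]
  refine sub_Nb S (half_lt_self h0) (f _ ?_)
  rcases mem_uIcc.1 m with h | h
  · exact mem_uIcc.2 (.inr ⟨by linarith [h.1], by linarith [h.2]⟩)
  · exact mem_uIcc.2 (.inl ⟨by linarith [h.1], by linarith [h.2]⟩)

/-- the same colours, no cut -/
def idl (S : Pre v M M') : Pre v M M :=
  { S with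
    φ := fun _ => 1
    sφ := contMDiffOn_const
    φv := fun y _ => by rw [rt, dl_const]; exact le_rfl
    φs := fun _ a b => (b a).elim
    meq' := fun _ => ⟨fun h => ⟨h, rfl⟩, And.left⟩ }

theorem far (c : Circle) (D : ℝ) :
    (∃ r < -|D|, c = Circle.exp r) ∧ ∃ r > |D|, c = Circle.exp r := by
  obtain ⟨n, hn⟩ := exists_nat_gt (|D| + π)
  have h1 := abs_le.1 (abs_ar_le c)
  have h2 := mul_le_mul_of_nonneg_left (show 1 ≤ 2 * π by linarith [two_le_pi])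
    (Nat.cast_nonneg (α := ℝ) n)
  exact ⟨⟨ar c - n * (2 * π), by linarith,
      ((Circle.periodic_exp.nat_mul n).sub_eq _).trans (exp_ar c) |>.symm⟩,
    ar c + n * (2 * π), by linarith, ((Circle.periodic_exp.nat_mul n _).trans (exp_ar c)).symm⟩

end Crest.Agent.X212.Hel3.Idl

namespace Crest.Agent.X212.Hel3

open Idl

/-- **IDLE** -/
theorem idle : IdleStmt := by
  intro Y o v Φ M M' S hB hC hP
  refine ⟨idl S, fun W hW => ?_, fun _ => rfl⟩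
  obtain ⟨W₁, hW₁, D, Q₁, a1, a2, a3⟩ := hC W hW
  obtain ⟨W₂, hW₂, Q₂, b1, b2, b3⟩ := zero S hB hP hW
  refine ⟨W₁ ∩ W₂, inter_mem hW₁ hW₂, 0, Q₁ ∪ Q₂, a1.union b1.isCompact,
    fun y hy => hy.elim (a2 y) fun h => b2 h, ?_⟩
  rintro ⟨y, r⟩ ⟨h1, h2, h3⟩ hy
  have key : ∀ {A : Set Y} {q : Y}, JoinedIn A y q → (∀ z ∈ A, z ∈ S.O ∧ z ∈ W ∧
      ((0 < S.tp z ∧ r < 0) ∨ (S.tm z < 0 ∧ 0 < r) ∨ (0 < S.tp z ∧ S.tm z < 0))) →
      JoinedIn {p | p ∈ (idl S).Gam ∧ p.1 ∈ W ∧ |p.2 - r| ≤ 0} (y, r) (q, r) := fun h hA => by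
    refine (h.map (f := fun z => (z, r)) (by fun_prop)).mono ?_
    rintro _ ⟨z, hz, rfl⟩
    exact ⟨⟨(hA z hz).1, h2, (hA z hz).2.2⟩, (hA z hz).2.1, by simp⟩
  obtain ⟨⟨r₁, c1, c2⟩, r₂, c3, c4⟩ := far (S.φ y) D
  have hD := le_abs_self D
  rcases h3 with h | h | h
  · obtain ⟨q, i, j⟩ := a3 (y, r₁) ⟨h1, c2, .inl ⟨h.1, by linarith [abs_nonneg D]⟩⟩ hy.1
    refine ⟨(q.1, r), .inl i, key (j.map continuous_fst) ?_⟩
    rintro _ ⟨p, ⟨k, l, m⟩, rfl⟩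
    refine ⟨k.1, l, .inl ⟨?_, h.2⟩⟩
    rcases k.2.2 with e | e | e
    exacts [e.1, by linarith [e.2, (abs_le.1 m).2], e.1]
  · obtain ⟨q, i, j⟩ := a3 (y, r₂) ⟨h1, c4, .inr (.inl ⟨h.1, by linarith [abs_nonneg D]⟩)⟩ hy.1
    refine ⟨(q.1, r), .inl i, key (j.map continuous_fst) ?_⟩
    rintro _ ⟨p, ⟨k, l, m⟩, rfl⟩
    refine ⟨k.1, l, .inr (.inl ⟨?_, h.2⟩)⟩
    rcases k.2.2 with e | e | e
    exacts [by linarith [e.2, (abs_le.1 m).1], e.1, e.2]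
  · obtain ⟨q, i, j⟩ := b3 y hy.2 h.1 h.2
    exact ⟨(q, r), .inr i, key j fun z hz => ⟨hz.1, hz.2.1, .inr (.inr hz.2.2)⟩⟩

end Crest.Agent.X212.Hel3
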