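import Crest.Agent.X212.Hel3.Hel
import Crest.Agent.X212.Dr59.HR
import Crest.Agent.X212.H7.Defs

/-!
# X212/Hel3/Sig (helper3): the column form

A closed two-form which is positive on the slices of a box over `[-1, 1]`, supported in the slab and
one column from the top of the slab to its bottom.
-/

set_option autoImplicit false
set_option linter.unusedSectionVars false

open Set Filter Topology Function
open scoped ContDiff Manifold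
open Crest.Agent.R208 Crest.Agent.R208.F Crest.Agent.R208.FI Crest.Agent.X212.Dr59
  Crest.Agent.X212.Int54 Crest.Agent.X212.Cyl58
open Crest.Agent.X212.Sep15 (EE IR CM Box slab)
open Crest.Agent.X212.Sym24 (pu dT OO ft nc dn up)
open Crest.Agent.X212.Bb31
open Crest.Agent.X212.H7 (Column)

noncomputable section

namespace Crest.Agent.X212.Hel3

variable {Y : CM 3} {R : CM 2}

theorem integ_pos {o a : Fm 2 R} (ho : Ori (𝓡 2) o) (ha : Sm (𝓡 2) univ a)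
    (h : ∀ x, 0 ≤ rat o a x) {x : R} (hx : rat o a x ≠ 0) : 0 < integ (𝓡 2) o a :=
  haveI := ho.finCpt
  haveI := ho.openPos
  (ho.continuous_rat fun y => (ha y trivial).of_le (by simp)
    ).integral_pos_of_hasCompactSupport_nonneg_nonzero (HasCompactSupport.of_compactSpace _) h hx

/-- the foot of a column is an open embedding -/
theorem foot_oe {b : R × ℝ → Y} (hb : Box b) {c : EE 2 × ℝ → Y} {e : EE 2 → R} {J : Set ℝ}
    (hJ : IsOpen J) {t : ℝ} (ht : t ∈ J)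
    (ld : ∀ z : EE 2 × ℝ, z.2 ∈ J → IsLocalDiffeomorphAt (IR 2) (𝓡 3) ∞ c z)
    (inj : InjOn c (univ ×ˢ J)) (eq : ∀ u, ∀ s ∈ J, c (u, s) = b (e u, s)) :
    IsOE (𝓡 2) (𝓡 2) e := by
  have h : ∀ u, IsLocalDiffeomorphAt (IR 2) (IR 2) ∞ (Prod.map e id) (u, t) := fun u => by
    have ev : b ∘ Prod.map e id =ᶠ[𝓝 (u, t)] c := by
      filter_upwards [(hJ.preimage continuous_snd).mem_nhds (x := (u, t)) ht] with z hz
      exact (eq z.1 z.2 hz).symm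
    exact ld_of_comp_left (hb.loc _) (hb.isOpenEmbedding.isInducing.continuousAt_iff.2
      ((ld (u, t) ht).contMDiffAt.continuousAt.congr ev.symm)) (ld_congr (ld _ ht) ev)
  have sm : ContMDiff (𝓡 2) (𝓡 2) ∞ e := fun u => contMDiffAt_fst.comp u
    ((h u).contMDiffAt.comp (f := fun u => (u, t)) u (contMDiffAt_id.prodMk contMDiffAt_const))
  refine ⟨fun u v k => congrArg Prod.fst (inj (x₁ := (u, t)) (x₂ := (v, t)) ⟨trivial, ht⟩
    ⟨trivial, ht⟩ (by rw [eq u t ht, eq v t ht, k])), fun u =>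
    Glue52.ld_of_injective_mfderiv rfl isOpen_univ trivial sm.contMDiffOn fun v w k => ?_⟩
  have i : Injective (mfderiv (IR 2) (IR 2) (Prod.map e id) (u, t)) :=
    ((h u).mfderivToContinuousLinearEquiv ne0).injective
  rw [(Sym24.hasMF_prod (p := (u, t)) (sm.mdifferentiable ne0 u)).mfderiv] at i
  exact congrArg Prod.fst (i (a₁ := (v, 0)) (a₂ := (w, 0)) (Prod.ext k rfl))

theorem pos_foot {o : Fm 3 Y} {oR : Fm 2 R} {b : R × ℝ → Y} (hR : Ori (𝓡 2) oR) (hb : Box b)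
    (hc : Cy oR o b) {e : EE 2 → R} (he : IsOE (𝓡 2) (𝓡 2) e) :
    Orx52.Pos (IR 2) (𝓡 3) (b ∘ Prod.map e id) univ (OO (pm (𝓡 2) (𝓡 2) e oR)) o := by
  have k := Orx52.Pos.cy (t := univ) (Orx52.pos_pm (Orx52.oriOn hR univ) (fun y _ => he.loc y)
    (mapsTo_univ _ univ)) (fun y _ => he.loc y) (fun x _ => hasDerivAt_id x) fun _ _ => one_pos
  rw [univ_prod_univ] at k
  exact Orx52.Pos.comp hc k (fun y _ => hb.loc y) (fun y _ => ld_prodMap (he.loc _) (ld_id _))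
    (mapsTo_univ _ _)

/-- interpolation of two-forms with the same integral through a positive one -/
theorem exists_slab {oR a₁ a₂ : Fm 2 R} (hR : Ori (𝓡 2) oR)
    (top : ∀ a : Fm 2 R, Sm (𝓡 2) univ a → Dg 2 univ a → integ (𝓡 2) oR a = 0 → Ex (𝓡 2) univ a)
    (s₁ : Sm (𝓡 2) univ a₁) (s₂ : Sm (𝓡 2) univ a₂) (d₁ : Dg 2 univ a₁) (d₂ : Dg 2 univ a₂)
    (n₁ : ∀ x, 0 ≤ rat oR a₁ x) (n₂ : ∀ x, 0 ≤ rat oR a₂ x) {x₀ : R} (h0 : rat oR a₁ x₀ ≠ 0)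
    (e : integ (𝓡 2) oR a₁ = integ (𝓡 2) oR a₂) :
    ∃ A : R × ℝ → Ext (EE 2 × ℝ), Cl (IR 2) 2 univ A ∧ (∀ p, 2 < p.2 → A p = pu a₁ p) ∧
      (∀ p, p.2 < -2 → A p = pu a₂ p) ∧ (∀ y x, 0 ≤ rat oR (Sym24.sl y A) x) ∧
      ∀ y ∈ Icc (-1 : ℝ) 1, ∀ x, 0 < rat oR (Sym24.sl y A) x := by
  have t : ∀ x, tp (EE 2) (dp 2 oR x) = tp (EE 2) (oR x) := fun x => by
    simpa using Orx52.tp_dp oR x
  have r : ∀ x, rat oR (dp 2 oR) x = 1 := fun x => by rw [rat, t, div_self (hR.ne x)]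
  have so : Sm (𝓡 2) univ (dp 2 oR) := fun x _ => (hR.sm x).dp 2
  have p0 := integ_pos hR so (fun x => by rw [r]; exact zero_le_one) (x := x₀) (by simp [r])
  have p1 := integ_pos hR s₁ n₁ h0
  obtain ⟨a, sa, da, pa, ia⟩ : ∃ a : Fm 2 R, Sm (𝓡 2) univ a ∧ Dg 2 univ a ∧ (∀ x, 0 < rat oR a x) ∧
      integ (𝓡 2) oR a = integ (𝓡 2) oR a₁ :=
    ⟨(integ (𝓡 2) oR a₁ / integ (𝓡 2) oR (dp 2 oR)) • dp 2 oR, so.smul _,
      Dg.smul _ fun x _ => T.isDeg_dpl _ _, fun x => by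
        rw [rat_smul, Pi.smul_apply, r, smul_eq_mul, mul_one]; positivity,
      by rw [integ_smul, div_mul_cancel₀ _ p0.ne']⟩
  have io : ∀ {c : Fm 2 R}, Sm (𝓡 2) univ c → IntOn (𝓡 2) oR c univ := fun h =>
    hR.intOn (fun x => (h x trivial).of_le (by simp)) _
  obtain ⟨η₁, f1, f2, f3⟩ := (top _ (sa.sub s₁) (da.sub d₁) (by
    rw [integ_sub (io sa) (io s₁), ia, sub_self])).deg (k := 1) (da.sub d₁)
  obtain ⟨η₂, g1, g2, g3⟩ := (top _ (sa.sub s₂) (da.sub d₂) (by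
    rw [integ_sub (io sa) (io s₂), ia, e, sub_self])).deg (k := 1) (da.sub d₂)
  let χ : ℝ → ℝ := fun y => 1 - stp (-2) (-1) y
  have c1 := contDiff_stp 1 2
  have c2 : ContDiff ℝ ∞ χ := contDiff_const.sub (contDiff_stp (-2) (-1))
  have m1 : Sm (IR 2) univ (ft R (stp 1 2) • pu η₁) := fun p _ =>
    Sym24.smAt_ft c1 (Sym24.smAt_pu (f1 _ trivial))
  have m2 : Sm (IR 2) univ (ft R χ • pu η₂) := fun p _ =>
    Sym24.smAt_ft c2 (Sym24.smAt_pu (g1 _ trivial))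
  have q : ∀ {k} {c : Fm 2 R}, Dg k univ c → Dg k univ (pu c : R × ℝ → _) := fun h p _ =>
    Sym24.isDeg_up (h _ trivial)
  have fm : ∀ p : R × ℝ, (pu a - dM (IR 2) (ft R (stp 1 2) • pu η₁) - dM (IR 2) (ft R χ • pu η₂)) p =
      up ((1 - stp 1 2 p.2 - χ p.2) • a p.1 + stp 1 2 p.2 • a₁ p.1 + χ p.2 • a₂ p.1) -
        deriv (stp 1 2) p.2 • (dT (EE 2) * pu η₁ p) - deriv χ p.2 • (dT (EE 2) * pu η₂ p) :=
    fun p => by
      rw [Pi.sub_apply, Pi.sub_apply, Sym24.dM_ft c1 (Sym24.smAt_pu (f1 _ trivial)),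
        Sym24.dM_ft c2 (Sym24.smAt_pu (g1 _ trivial)), Sym24.dM_pu (f1 _ trivial),
        Sym24.dM_pu (g1 _ trivial)]
      simp only [pu, f3 _ trivial, g3 _ trivial, Pi.sub_apply, map_sub, map_add, map_smul]
      module
  have fs : ∀ y x, rat oR (Sym24.sl y (pu a - dM (IR 2) (ft R (stp 1 2) • pu η₁) -
      dM (IR 2) (ft R χ • pu η₂))) x = (1 - stp 1 2 y - χ y) * rat oR a x + stp 1 2 y * rat oR a₁ x +
        χ y * rat oR a₂ x := fun y x => by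
    simp only [rat, Sym24.sl, fm, map_sub, map_add, map_smul, map_mul, Sym24.dn_up, Sym24.dn_dT,
      zero_mul, smul_zero, map_zero, smul_eq_mul]
    ring
  have dz : ∀ {g : ℝ → ℝ} {y c : ℝ}, (∀ᶠ s in 𝓝 y, g s = c) → deriv g y = 0 := fun h => by
    rw [EventuallyEq.deriv_eq h, deriv_const]
  refine ⟨_, ((⟨fun p _ => Sym24.smAt_pu (sa _ trivial), q da, fun p _ => by
      rw [Sym24.dM_pu (sa _ trivial), pu, Sym24.eq_zero_of_deg (da.dM isOpen_univ _ trivial)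
        (by simp), map_zero]⟩ : Cl (IR 2) 2 univ (pu a)).sub
      (cl_dM isOpen_univ m1 ((q f2).fsmul _))).sub (cl_dM isOpen_univ m2 ((q g2).fsmul _)),
    fun p hp => ?_, fun p hp => ?_, fun y x => ?_, fun y hy x => ?_⟩
  · have u1 : ∀ y, 2 < y → stp 1 2 y = 1 := fun y h => stp_one one_lt_two h.le
    have u2 : ∀ y, 2 < y → χ y = 0 := fun y h => by
      simp only [χ]; rw [stp_one (by norm_num) (by linarith), sub_self]
    rw [fm, dz ((lt_mem_nhds hp).mono u1), dz ((lt_mem_nhds hp).mono u2), u1 _ hp, u2 _ hp]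
    simp [pu]
  · have u1 : ∀ y, y < -2 → stp 1 2 y = 0 := fun y h => stp_zero one_lt_two (by linarith)
    have u2 : ∀ y, y < -2 → χ y = 1 := fun y h => by
      simp only [χ]; rw [stp_zero (by norm_num) h.le, sub_zero]
    rw [fm, dz ((gt_mem_nhds hp).mono u1), dz ((gt_mem_nhds hp).mono u2), u1 _ hp, u2 _ hp]
    simp [pu]
  · rw [fs]
    have u : 0 ≤ 1 - stp 1 2 y - χ y := by
      rcases le_total y 0 with h | h
      · rw [stp_zero one_lt_two (by linarith)]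
        simpa [χ] using stp_nonneg _ _ _
      · simp only [χ]
        rw [stp_one (a := -2) (by norm_num) (by linarith)]
        simpa using stp_le_one _ _ _
    exact add_nonneg (add_nonneg (mul_nonneg u (pa x).le) (mul_nonneg (stp_nonneg _ _ _) (n₁ x)))
      (mul_nonneg (sub_nonneg.2 (stp_le_one _ _ _)) (n₂ x))
  · rw [fs]
    simp only [χ]
    rw [stp_zero one_lt_two hy.2, stp_one (by norm_num) hy.1]
    simpa using pa x

theorem pm_foot {e : EE 2 → R} (he : IsOE (𝓡 2) (𝓡 2) e) (a : Fm 2 R) {s : ℝ} (z : EE 2 × ℝ) :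
    pm (IR 2) (IR 2) (fun z => (e z.1, z.2 + s)) (pu a) z = pu (pm (𝓡 2) (𝓡 2) e a) z := by
  have h := he.contMDiff.mdifferentiable ne0
  rw [← Sym24.pm_fst (I := 𝓡 2), ← Sym24.pm_fst (I := 𝓡 2),
    pm_comp (f := fun z : EE 2 × ℝ => (e z.1, z.2 + s)) mdifferentiableAt_fst
      (((h _).comp z mdifferentiableAt_fst).prodMk (mdifferentiableAt_snd.add mdifferentiableAt_const)),
    pm_comp (h _) mdifferentiableAt_fst]
  rfl

theorem exists_bump2 {oE : Fm 2 (EE 2)} (hE : Ori (𝓡 2) oE) : ∃ a : Fm 2 (EE 2), Sm (𝓡 2) univ a ∧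
    Dg 2 univ a ∧ (∀ u, 0 ≤ rat oE a u) ∧ rat oE a 0 ≠ 0 ∧ ∀ u ∉ Metric.closedBall 0 2, a u = 0 := by
  let f : ContDiffBump (0 : EE 2) := ⟨1, 2, one_pos, one_lt_two⟩
  have t : ∀ x, tp (EE 2) (dp 2 oE x) = tp (EE 2) (oE x) := fun x => by
    simpa using Orx52.tp_dp oE x
  have r : ∀ u, rat oE ((f : EE 2 → ℝ) • dp 2 oE) u = f u := fun u => by
    rw [rat_fsmul, Pi.mul_apply, rat, t, div_self (hE.ne u), mul_one]
  refine ⟨(f : EE 2 → ℝ) • dp 2 oE, Sm.fsmul (fun u _ => f.contDiff.contMDiff u)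
    fun u _ => (hE.sm u).dp 2, Dg.fsmul _ fun u _ => T.isDeg_dpl _ _, fun u => r u ▸ f.nonneg,
    by rw [r, f.one_of_mem_closedBall (by simp [f])]; exact one_ne_zero, fun u hu => ?_⟩
  rw [Pi.smul_apply', f.zero_of_le_dist (not_le.1 hu).le, zero_smul]

theorem exists_push2 {oE a : Fm 2 (EE 2)} {oR : Fm 2 R} (hE : Ori (𝓡 2) oE) (hR : Ori (𝓡 2) oR)
    (sa : Sm (𝓡 2) univ a) (da : Dg 2 univ a) (na : ∀ u, 0 ≤ rat oE a u) {S : Set (EE 2)}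
    (hS : IsCompact S) (za : ∀ u ∉ S, a u = 0) {e : EE 2 → R} (he : IsOE (𝓡 2) (𝓡 2) e)
    (hs : SameOn oE (pm (𝓡 2) (𝓡 2) e oR) univ) :
    ∃ a' : Fm 2 R, pm (𝓡 2) (𝓡 2) e a' = a ∧ (∀ x ∉ e '' S, a' x = 0) ∧
      Sm (𝓡 2) univ a' ∧ Dg 2 univ a' ∧ (∀ x, 0 ≤ rat oR a' x) ∧
      integ (𝓡 2) oR a' = integ (𝓡 2) oE a := by
  obtain ⟨a', h1, h2, h3, h4, -⟩ := (OE.of_oe he).exists_push hS (subset_univ _)
    fun u _ hu => za u hu
  have h5 : pm (𝓡 2) (𝓡 2) e a' = a := funext fun u => h1 u trivial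
  refine ⟨a', h5, h2, h3 sa, h4 2 da, fun x => ?_, ?_⟩
  · by_cases hx : x ∈ e '' S
    · obtain ⟨u, -, rfl⟩ := hx
      exact nonneg_ld (he.loc u) (Orx52.same_symm hs u trivial) (h5 ▸ na u)
    · rw [rat_of_zero (h2 x hx)]
  · rw [integ_map rfl hR hE he.contMDiff he.inj hs fun x hx => by
      rw [h2 x fun k => hx (image_subset_range _ _ k), map_zero], h5]

theorem exists_glue {b : R × ℝ → Y} {c : EE 2 × ℝ → Y} {s : Set (R × ℝ)} {t : Set (EE 2 × ℝ)}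
    (h1 : OE (IR 2) (𝓡 3) s b) (h2 : OE (IR 2) (𝓡 3) t c) (A : R × ℝ → Ext (EE 2 × ℝ))
    (B : EE 2 × ℝ → Ext (EE 2 × ℝ)) (h : ∀ σ : Fm 3 Y, (∀ p ∈ s, pm (IR 2) (𝓡 3) b σ p = A p) →
      ∀ z ∈ t, c z ∈ b '' s → pm (IR 2) (𝓡 3) c σ z = B z) :
    ∃ σ : Fm 3 Y, (∀ p ∈ s, pm (IR 2) (𝓡 3) b σ p = A p) ∧
      (∀ z ∈ t, pm (IR 2) (𝓡 3) c σ z = B z) ∧ ∀ p ∉ b '' s, p ∉ c '' t → σ p = 0 := by
  classical
  obtain ⟨A', hA, -⟩ := h1.exists_pf (I := 𝓡 3) A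
  obtain ⟨B', hB, zB⟩ := h2.exists_pf (I := 𝓡 3) B
  obtain ⟨σ, u1, u2⟩ : ∃ σ : Fm 3 Y, (∀ p ∈ b '' s, σ p = A' p) ∧ ∀ p ∉ b '' s, σ p = B' p :=
    ⟨fun p => if p ∈ b '' s then A' p else B' p, fun _ h => if_pos h, fun _ h => if_neg h⟩
  have e1 : ∀ p ∈ s, pm (IR 2) (𝓡 3) b σ p = A p := fun p hp =>
    (pm_congr_right (u1 _ (mem_image_of_mem b hp))).trans (hA p hp)
  refine ⟨σ, e1, fun z hz => ?_, fun p h h' => (u2 p h).trans (zB p h')⟩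
  by_cases k : c z ∈ b '' s
  · exact h σ e1 z hz k
  · exact (pm_congr_right (u2 _ k)).trans (hB z hz)

theorem pm_col {b : R × ℝ → Y} (hb : Box b) {c : EE 2 × ℝ → Y} {e : EE 2 → R}
    (he : IsOE (𝓡 2) (𝓡 2) e) {s : ℝ} {z : EE 2 × ℝ} {σ : Fm 3 Y} {a : Fm 2 R}
    (ev : c =ᶠ[𝓝 z] b ∘ fun z => (e z.1, z.2 + s))
    (h : pm (IR 2) (𝓡 3) b σ (e z.1, z.2 + s) = pu a (e z.1, z.2 + s)) :
    pm (IR 2) (𝓡 3) c σ z = pu (pm (𝓡 2) (𝓡 2) e a) z := by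
  rw [pm_congr ev rfl, ← pm_comp (f := fun z : EE 2 × ℝ => (e z.1, z.2 + s))
    (hb.contMDiff.mdifferentiable ne0 _)
    ((((he.contMDiff.mdifferentiable ne0) _).comp z mdifferentiableAt_fst).prodMk
      (mdifferentiableAt_snd.add mdifferentiableAt_const)), ← pm_foot he a (s := s)]
  exact pm_congr_right h

section col

variable {o τ : Fm 3 Y} {oR : Fm 2 R} {b : R × ℝ → Y} {U : Set Y} {c : EE 2 × ℝ → Y}
  {e₁ e₂ : EE 2 → R} {L : ℝ}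

theorem col_i1 (h : Column b U τ c e₁ e₂ L) : Ioo (2 : ℝ) 3 ⊆ Ioo 2 (L - 2) :=
  Ioo_subset_Ioo_right (by linarith [h.len])

theorem col_i2 (h : Column b U τ c e₁ e₂ L) : ∀ t ∈ Ioo (-3 : ℝ) (-2), t + L ∈ Ioo 2 (L - 2) :=
  fun t k => ⟨by linarith [k.1, h.len], by linarith [k.2]⟩

theorem oe_tr (L : ℝ) : IsOE (IR 2) (IR 2) (Prod.map id fun t => t + L : EE 2 × ℝ → _) :=
  IsOE.id.prodMap (Up.add_const L univ).isOE

theorem col_o1 (hb : Box b) (h : Column b U τ c e₁ e₂ L) : IsOE (𝓡 2) (𝓡 2) e₁ :=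
  foot_oe hb isOpen_Ioo (t := 5 / 2) (by norm_num) (fun z k => h.ld z (col_i1 h k))
    (h.inj.mono (prod_mono subset_rfl (col_i1 h))) h.top

theorem col_o2 (hb : Box b) (h : Column b U τ c e₁ e₂ L) : IsOE (𝓡 2) (𝓡 2) e₂ :=
  foot_oe hb (c := c ∘ Prod.map id fun t => t + L) isOpen_Ioo (t := -5 / 2) (by norm_num)
    (fun z k => ld_comp (h.ld _ (col_i2 h _ k)) ((oe_tr L).loc z))
    (fun _ hz _ hw k => (oe_tr L).inj
      (h.inj ⟨trivial, col_i2 h _ hz.2⟩ ⟨trivial, col_i2 h _ hw.2⟩ k)) h.bot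

theorem col_pos (ho : Ori (𝓡 3) o) (hR : Ori (𝓡 2) oR) (hb : Box b) (hc : Cy oR o b)
    (h : Column b U τ c e₁ e₂ L) :
    Orx52.Pos (IR 2) (𝓡 3) c (univ ×ˢ Ioo 2 (L - 2)) (OO (pm (𝓡 2) (𝓡 2) e₁ oR)) o :=
  Orx52.pos_of_pt (isPreconnected_univ.prod isPreconnected_Ioo)
    (Orx52.oriOn (Sym24.ori_OO (Orx52.ori_pm hR (col_o1 hb h).loc)) _)
    (Orx52.oriOn ho univ) (fun z k => h.ld z k.2) (mapsTo_univ _ _) (y := (0, 5 / 2))
    ⟨trivial, col_i1 h (by norm_num)⟩ (((pos_foot hR hb hc (col_o1 hb h)).mono (subset_univ _)).congr' (by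
      rintro _ rfl
      filter_upwards [(isOpen_Ioo.preimage continuous_snd).mem_nhds
        (show (((0 : EE 2), (5 / 2 : ℝ))).2 ∈ Ioo (2 : ℝ) 3 by norm_num)] with w hw
      exact h.top w.1 w.2 hw))

theorem col_same (ho : Ori (𝓡 3) o) (hR : Ori (𝓡 2) oR) (hb : Box b) (hc : Cy oR o b)
    (h : Column b U τ c e₁ e₂ L) :
    SameOn (pm (𝓡 2) (𝓡 2) e₁ oR) (pm (𝓡 2) (𝓡 2) e₂ oR) univ := fun u _ => by
  have hE := Orx52.ori_pm hR (col_o1 hb h).loc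
  have pc := col_pos ho hR hb hc h
  have k2 := (pos_foot hR hb hc (col_o2 hb h)).mono (subset_univ (univ ×ˢ Ioo (-3 : ℝ) (-2)))
  generalize pm (𝓡 2) (𝓡 2) e₁ oR = o₁ at *
  generalize pm (𝓡 2) (𝓡 2) e₂ oR = o₂ at *
  have k : Orx52.Pos (IR 2) (IR 2) (Prod.map id fun t => t + L) (univ ×ˢ Ioo (-3 : ℝ) (-2))
      (OO o₁) (OO o₁) := Orx52.Pos.cy (g' := fun _ => 1) (Orx52.pos_id.2 (hE.same univ))
    (fun y _ => ld_id y) (fun x _ => (hasDerivAt_id x).add_const L) fun _ _ => one_pos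
  have k1 : Orx52.Pos (IR 2) (𝓡 3) (b ∘ Prod.map e₂ id) (univ ×ˢ Ioo (-3 : ℝ) (-2)) (OO o₁) o :=
    (pc.comp k (fun z j => h.ld z j.2) (fun z _ => (oe_tr L).loc z)
      fun z j => ⟨trivial, col_i2 h _ j.2⟩).congr (isOpen_univ.prod isOpen_Ioo)
      fun w hw => (h.bot w.1 w.2 hw.2).symm
  have k3 := Orx52.same_trans (Orx52.same_symm k1) k2 (u, -5 / 2) ⟨trivial, by norm_num⟩
  rw [Sym24.tp_OO, Sym24.tp_OO, mul_mul_mul_comm] at k3
  exact (pos_iff_pos_of_mul_pos k3).1 (mul_self_pos.2 Sym24.kap_ne)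

/-- **the column form** -/
theorem exists_sig (ho : Ori (𝓡 3) o) (hR : Ori (𝓡 2) oR) (hb : Box b) (hc : Cy oR o b)
    (top2 : ∀ a : Fm 2 R, Sm (𝓡 2) univ a → Dg 2 univ a → integ (𝓡 2) oR a = 0 → Ex (𝓡 2) univ a)
    (hC : Column b U τ c e₁ e₂ L) :
    ∃ (σ : Fm 3 Y) (K : Set Y), Z2 σ ∧ IsClosed K ∧
      K ⊆ slab b (Ioo (-3) 3) ∪ c '' (univ ×ˢ Ioo 2 (L - 2)) ∧ (∀ p ∉ K, σ p = 0) ∧
      SP oR b σ (Icc (-1) 1) ∧
      (∀ x, ∀ y ∈ Ioo (-3 : ℝ) 3, 0 ≤ rat oR (Sym24.sl y (pm (IR 2) (𝓡 3) b σ)) x) ∧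
      (∀ p : R × ℝ, p.2 ∈ Ioo (-3 : ℝ) 3 → p.2 ∉ Icc (-2 : ℝ) 2 →
        nc (pm (IR 2) (𝓡 3) b σ p) = 0) ∧
      ∀ z : EE 2 × ℝ, z.2 ∈ Ioo 2 (L - 2) → IsDeg 1 (τ (c z)) → 0 ≤ rat o (σ * τ) (c z) := by
  have i1 := col_i1 hC
  have i2 := col_i2 hC
  have o1 := col_o1 hb hC
  have o2 := col_o2 hb hC
  have pc := col_pos ho hR hb hc hC
  have same := col_same ho hR hb hc hC
  have hE := Orx52.ori_pm hR o1.loc
  obtain ⟨len, ld, inj, -, pos, top, bot, out⟩ := hC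
  have hU : IsOpen ((univ : Set (EE 2)) ×ˢ Ioo 2 (L - 2)) := isOpen_univ.prod isOpen_Ioo
  have ev1 : ∀ z : EE 2 × ℝ, z.2 ∈ Ioo (2 : ℝ) 3 → c =ᶠ[𝓝 z] b ∘ fun z => (e₁ z.1, z.2 + 0) :=
    fun z h => by
      filter_upwards [(isOpen_Ioo.preimage continuous_snd).mem_nhds h] with w hw
      simpa using top w.1 w.2 hw
  have ev2 : ∀ z : EE 2 × ℝ, z.2 + -L ∈ Ioo (-3 : ℝ) (-2) →
      c =ᶠ[𝓝 z] b ∘ fun z => (e₂ z.1, z.2 + -L) := fun z h => by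
    filter_upwards [(isOpen_Ioo.preimage (continuous_snd.add continuous_const)).mem_nhds h] with w hw
    simpa using bot w.1 _ hw
  obtain ⟨a, sa, da, na, a0, za⟩ := exists_bump2 hE
  have hS := isCompact_closedBall (0 : EE 2) 2
  obtain ⟨a₁, p1, p2, p3, p4, p5, p6⟩ := exists_push2 hE hR sa da na hS za o1 (hE.same univ)
  obtain ⟨a₂, q1, q2, q3, q4, q5, q6⟩ := exists_push2 hE hR sa da na hS za o2 same
  obtain ⟨A, A1, A2, A3, A4, A5⟩ := exists_slab hR top2 p3 q3 p4 q4 p5 q5 (x₀ := e₁ 0)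
    (by rwa [← rat_ld (o1.loc 0), p1]) (p6.trans q6.symm)
  have h1 : OE (IR 2) (𝓡 3) (univ ×ˢ Ioo (-3) 3) b :=
    (OE.of_oe hb).mono (isOpen_univ.prod isOpen_Ioo) (subset_univ _)
  have h2 : OE (IR 2) (𝓡 3) (univ ×ˢ Ioo 2 (L - 2)) c := ⟨hU, fun z h => ld z h.2, inj⟩
  obtain ⟨σ, e1, e2, e3⟩ : ∃ σ : Fm 3 Y, (∀ p ∈ univ ×ˢ Ioo (-3 : ℝ) 3, pm (IR 2) (𝓡 3) b σ p = A p) ∧
      (∀ z ∈ univ ×ˢ Ioo 2 (L - 2), pm (IR 2) (𝓡 3) c σ z = pu a z) ∧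
      ∀ p ∉ slab b (Ioo (-3) 3), p ∉ c '' (univ ×ˢ Ioo 2 (L - 2)) → σ p = 0 := by
    refine exists_glue h1 h2 A (pu a) fun σ e1 z hz k => ?_
    rcases not_and_or.1 fun h => out z.1 z.2 h k with h | h
    · have h' : z.2 ∈ Ioo (2 : ℝ) 3 := ⟨hz.2.1, not_le.1 h⟩
      rw [← p1]
      exact pm_col hb o1 (ev1 z h') ((e1 _ ⟨trivial, by linarith [h'.1], by linarith [h'.2]⟩).trans
        (A2 _ (by simpa using h'.1)))
    · have h' : z.2 + -L ∈ Ioo (-3 : ℝ) (-2) := ⟨by linarith [not_le.1 h], by linarith [hz.2.2]⟩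
      rw [← q1]
      exact pm_col hb o2 (ev2 z h') ((e1 _ ⟨trivial, h'.1, by linarith [h'.2]⟩).trans (A3 _ h'.2))
  have i3 : Icc (5 / 2) (L - 5 / 2) ⊆ Ioo 2 (L - 2) := Icc_subset_Ioo (by norm_num) (by linarith)
  have hK' : IsClosed (slab b (Icc (-(5 / 2)) (5 / 2)) ∪
      c '' (Metric.closedBall 0 2 ×ˢ Icc (5 / 2) (L - 5 / 2))) :=
    (isCompact_slab hb isCompact_Icc).isClosed.union (h2.isCompact_image (hS.prod isCompact_Icc)
      (prod_mono (subset_univ _) i3)).isClosed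
  have z0 : ∀ p ∉ slab b (Icc (-(5 / 2)) (5 / 2)) ∪
      c '' (Metric.closedBall 0 2 ×ˢ Icc (5 / 2) (L - 5 / 2)), σ p = 0 := fun p hp => by
    by_cases k : p ∈ c '' (univ ×ˢ Ioo 2 (L - 2))
    · obtain ⟨z, hz, rfl⟩ := k
      refine zero_of_pm (ld z hz.2) ((e2 z hz).trans ?_)
      rw [pu, za _ fun h => hp ?_, map_zero]
      by_cases h' : z.2 ∈ Icc (5 / 2) (L - 5 / 2)
      · exact .inr ⟨z, ⟨h, h'⟩, rfl⟩
      rcases not_and_or.1 h' with h' | h'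
      · exact .inl ⟨_, ⟨trivial, by constructor <;> linarith [hz.2.1, not_le.1 h']⟩,
          (top z.1 z.2 ⟨hz.2.1, by linarith [not_le.1 h']⟩).symm⟩
      · refine .inl ⟨(e₂ z.1, z.2 - L), ⟨trivial, by
          constructor <;> linarith [hz.2.2, not_le.1 h']⟩, ?_⟩
        rw [← bot z.1 _ ⟨by linarith [not_le.1 h'], by linarith [hz.2.2]⟩, sub_add_cancel]
    by_cases k' : p ∈ slab b (Ioo (-3) 3)
    · obtain ⟨q, hq, rfl⟩ := k'
      refine zero_of_pm (hb.loc q) ((e1 q hq).trans ?_)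
      rcases not_and_or.1 fun h => hp (.inl ⟨q, ⟨trivial, h⟩, rfl⟩) with h | h
      · have h' : q.2 ∈ Ioo (-3 : ℝ) (-2) := ⟨hq.2.1, by linarith [not_le.1 h]⟩
        rw [A3 q h'.2, pu, q2, map_zero]
        rintro ⟨u, -, hu⟩
        exact k ⟨(u, q.2 + L), ⟨trivial, i2 _ h'⟩, by rw [bot u _ h', hu]⟩
      · have h' : q.2 ∈ Ioo (2 : ℝ) 3 := ⟨by linarith [not_le.1 h], hq.2.2⟩
        rw [A2 q h'.1, pu, p2, map_zero]
        rintro ⟨u, -, hu⟩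
        exact k ⟨(u, q.2), ⟨trivial, i1 h'⟩, by rw [top u _ h', hu]⟩
    · exact e3 p k' k
  have ca : Cl (IR 2) 2 univ (pu a : EE 2 × ℝ → _) := ⟨fun p _ => Sym24.smAt_pu (sa _ trivial),
    fun p _ => Sym24.isDeg_up (da _ trivial), fun p _ => by
      rw [Sym24.dM_pu (sa _ trivial), pu, Sym24.eq_zero_of_deg (da.dM isOpen_univ _ trivial)
        (by simp), map_zero]⟩
  have sl : ∀ x, ∀ y ∈ Ioo (-3 : ℝ) 3,
      rat oR (Sym24.sl y (pm (IR 2) (𝓡 3) b σ)) x = rat oR (Sym24.sl y A) x := fun x y hy => by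
    rw [rat, rat, Sym24.sl, e1 _ ⟨trivial, hy⟩, Sym24.sl]
  refine ⟨σ, _, cl_of_loc fun p _ => ?_, hK', union_subset_union (image_mono (prod_mono subset_rfl
    (Icc_subset_Ioo (by norm_num) (by norm_num)))) (image_mono (prod_mono (subset_univ _) i3)), z0,
    fun x y hy => ?_, fun x y hy => sl x y hy ▸ A4 y x, fun p h h' => ?_, fun z hz dτ => ?_⟩
  · by_cases k : p ∈ slab b (Icc (-(5 / 2)) (5 / 2)) ∪
      c '' (Metric.closedBall 0 2 ×ˢ Icc (5 / 2) (L - 5 / 2))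
    · rcases k with k | k
      · exact ⟨_, image_mono (prod_mono subset_rfl (Icc_subset_Ioo (by norm_num) (by norm_num))) k,
          h1.cl e1 (A1.mono (subset_univ _))⟩
      · exact ⟨_, image_mono (prod_mono (subset_univ _) i3) k, h2.cl e2 (ca.mono (subset_univ _))⟩
    · exact ⟨_, k, cl_of_zero hK'.isOpen_compl z0⟩
  · rw [sl x y ⟨by linarith [hy.1], by linarith [hy.2]⟩]
    exact A5 y hy x
  · rw [e1 p ⟨trivial, h⟩]
    rcases not_and_or.1 h' with k | k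
    · rw [A3 p (not_le.1 k), pu, Sym24.nc_up]
    · rw [A2 p (not_le.1 k), pu, Sym24.nc_up]
  · refine nonneg_ld (ld z hz) (pc z ⟨trivial, hz⟩) ?_
    rw [Sym24.rat_OO, pm_mul, Pi.mul_apply, e2 z ⟨trivial, hz⟩, pu, Sym24.nc_up_mul,
      Sym24.inv2 (da _ trivial), eq_alg_of_deg (Sym24.isDeg_nc (k := 0)
        (c := pm (IR 2) (𝓡 3) c τ z) (dτ.pb _)), ← Algebra.commutes, ← Algebra.smul_def, map_smul,
      smul_eq_mul, mul_div_assoc]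
    exact mul_nonneg (pos z hz).le (na _)

end col

end Crest.Agent.X212.Hel3
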